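import Vale.Agent.P275GQ.Bx
import Vale.Agent.P275XB.Cpt
import Vale.Agent.P275B.Coc
import Vale.Agent.P275S1.Sec

/-!
P275 (helper22): the projection to the character variety, read in the Riemann-Hilbert charts.
-/

set_option linter.all false

open scoped Topology
open CategoryTheory Set Filter Topology Function
open Vale.Agent.P275GC (At)
open Vale.Agent.P275NA (Cy)
open Vale.Agent.P275MO Vale.Agent.P275Z Vale.Agent.P275RG Vale.Agent.P275XS Vale.Agent.P275B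
open Vale.Agent.P275XB (Ok)
open Vale.Agent.P275ST (Rep XB deg)
open Vale.Agent.P275OI (sb sL inc sec pP)

noncomputable section

namespace Vale.Agent.P275BW

variable {C : Type} [TopologicalSpace C] {A : At C} {l : Cy A ℂ} {g n : ℕ} {d : ℤ}
  (D : RHD A l g n d) {i j k : Fin D.N} {κ κ' : Bet g d (tauX n) → Bet g d (tauX n)} {x : C}

theorem hX : ∀ R ∈ (tauX n).q, R ∈ (tauX n).H := fun _ _ => trivial

/-- moving the pole from the chart `i` to the chart `j` acts on the monodromy by `κ` -/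
def Mv (i j : Fin D.N) (κ : Bet g d (tauX n) → Bet g d (tauX n)) : Prop :=
  ∀ y (hy : y ∈ DR A l d (tauX n) (D.V i)) c (hc : mvp c y ∈ DR A l d (tauX n) (D.V j)),
    (D.Ψ _ hX j ⟨_, hc⟩).2 = κ (D.Ψ _ hX i ⟨y, hy⟩).2

variable {D}

theorem psi_eq {y y' : Mod A l (tauX n)} (e : y = y') (a : y ∈ DR A l d (tauX n) (D.V i)) :
    (D.Ψ _ hX i ⟨y, a⟩).2 = (D.Ψ _ hX i ⟨y', e ▸ a⟩).2 := by
  subst e
  rfl

theorem Mv.trans (h : Mv D i j κ) (h' : Mv D j k κ') (hx : x ∈ D.V j) :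
    Mv D i k fun b => κ' (κ b) := fun y hy c hc =>
  (psi_eq (mvp_mvp (c := c) (c' := x) y).symm hc).trans
    ((h' _ (mem_DR hy hx) c _).trans (congrArg κ' (h y hy x _)))

theorem psi_tr {y : Mod A l (tauX n)} (a : y ∈ DR A l d (tauX n) (D.V i))
    (b : y ∈ DR A l d (tauX n) (D.V j)) :
    (D.Ψ _ hX j ⟨y, b⟩).2 = map _ (D.t i j) (D.Ψ _ hX i ⟨y, a⟩).2 := by
  obtain ⟨z, rfl⟩ := pt_surj y
  obtain ⟨⟨ρ, a1⟩, a2⟩ := D.spec _ hX i z a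
  obtain ⟨⟨ρ', b1⟩, b2⟩ := D.spec _ hX j z b
  obtain ⟨p, e1, -, e2⟩ := a2 ρ a1
  obtain ⟨p', e3, -, e4⟩ := b2 ρ' b1
  rw [e2, e4, map_pt]
  refine (pt_eqv hX (by simp only [bap, e1, e3]) ?_).symm
  simpa only [bap, e1, e3] using rel_tr D a1 b.2.1 b1

theorem mv_tr (hi : x ∈ D.V i) (hj : x ∈ D.V j) : Mv D i j (map _ (D.t i j)) := fun y hy c hc =>
  (psi_eq (mvp_mvp (c := c) (c' := x) y).symm hc).trans ((psi_mvp D hX (mem_DR hy hj) _).trans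
    ((psi_tr (mem_DR hy hi) _).trans (congrArg _ (psi_mvp D hX hy _))))

theorem Mv.id (h : Mv D i i κ) (hx : x ∈ D.V i) (b : Bet g d (tauX n)) : κ b = b := by
  obtain ⟨⟨y, hy⟩, e⟩ := (D.Ψ _ hX i).surjective (⟨x, hx⟩, b)
  have := (h y hy x (mem_DR hy hx)).symm.trans (psi_mvp D hX hy _)
  rwa [e] at this

variable [Ok g n d] [PreconnectedSpace C]

theorem ex_mv (x x' : C) : ∀ i j, x ∈ D.V i → x' ∈ D.V j →
    ∃ κ, Alg (vX g n d).cp (vX g n d).cp κ ∧ Mv D i j κ := by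
  have h0 : ∀ {i j x}, x ∈ D.V i → x ∈ D.V j →
      ∃ κ, Alg (vX g n d).cp (vX g n d).cp κ ∧ Mv D i j κ := fun hi hj =>
    ⟨_, alg_autX _ fun p => ⟨bap _ p, im_ap _ _, rfl⟩, mv_tr hi hj⟩
  have h1 : ∀ {i j k x}, x ∈ D.V j → (∃ κ, Alg (vX g n d).cp (vX g n d).cp κ ∧ Mv D i j κ) →
      (∃ κ, Alg (vX g n d).cp (vX g n d).cp κ ∧ Mv D j k κ) →
      ∃ κ, Alg (vX g n d).cp (vX g n d).cp κ ∧ Mv D i k κ :=
    fun hx ⟨_, a, b⟩ ⟨_, a', b'⟩ => ⟨_, a'.comp a, b.trans b' hx⟩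
  refine PreconnectedSpace.induction₂' (fun x x' => ∀ i j, x ∈ D.V i → x' ∈ D.V j →
    ∃ κ, Alg (vX g n d).cp (vX g n d).cp κ ∧ Mv D i j κ) (fun x => ?_)
    ⟨fun _ y _ a b i j hi hj => ?_⟩ x x'
  · obtain ⟨k, hk⟩ := D.cov x
    filter_upwards [(D.opn k).mem_nhds hk] with y hy
    exact ⟨fun i j a b => h1 hk (h0 a hk) (h0 hy b), fun i j a b => h1 hk (h0 a hy) (h0 hk b)⟩
  · obtain ⟨k, hk⟩ := D.cov y
    exact h1 hk (a i k hi hk) (b k j hk hj)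

variable (D) in
/-- the changes of chart, for the projection which moves the pole to the chart `j` -/
theorem ex_kap (hx : x ∈ D.V j) : ∃ κ : Fin D.N → Bet g d (tauX n) ≃ₜ Bet g d (tauX n),
    ∀ i, (Alg (vX g n d).cp (vX g n d).cp (κ i) ∧ Alg (vX g n d).cp (vX g n d).cp (κ i).symm) ∧
      Mv D i j (κ i) := by
  refine Classical.skolem (p := fun i (κ : _ ≃ₜ _) => (Alg (vX g n d).cp (vX g n d).cp κ ∧
    Alg (vX g n d).cp (vX g n d).cp κ.symm) ∧ Mv D i j κ).1 fun i => ?_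
  rcases (D.V i).eq_empty_or_nonempty with e | ⟨y, hy⟩
  · exact ⟨.refl _, ⟨.id _, .id _⟩, fun y hy => (e ▸ hy.2.1 : y.x ∈ (∅ : Set C)).elim⟩
  obtain ⟨κ, a, b⟩ := ex_mv y x i j hy hx
  obtain ⟨κ', a', b'⟩ := ex_mv x y j i hx hy
  exact ⟨⟨⟨κ, κ', (b.trans b' hx).id hy, (b'.trans b hy).id hx⟩, a.hol.cont, a'.hol.cont⟩,
    ⟨a, a'⟩, b⟩

/-- **PI** -/
theorem pi_spec {S : Sit} (B : S.Brg)
    {π : sb (sL B.T.A B.T.l (tauZ S.n (nr S.n)) 1) ⟶ TX S.g S.n (deg S.D)}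
    (hπ : π ≫ sec B 1 = inc _ ≫ pP S.n B.T.A B.T.l S.p) :
    ∃ κ : Fin B.R.N → Bet S.g (deg S.D) (tauX S.n) ≃ₜ Bet S.g (deg S.D) (tauX S.n),
      (∀ i, Alg (vX _ _ _).cp (vX _ _ _).cp (κ i) ∧ Alg (vX _ _ _).cp (vX _ _ _).cp (κ i).symm) ∧
      ∀ i (z : Ob B.T.A B.T.l (tauZ S.n (nr S.n))) h (ρ : Rep S.g S.n (deg S.D)),
        z.1.x ∈ B.R.V i → B.R.Rel i z.1 ρ.1 → π ⟨z.pt, h⟩ = bx _ _ _ (κ i (ptX ρ)) := by
  obtain ⟨κ, hκ⟩ := ex_kap B.R.toRHD B.R.hp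
  refine ⟨κ, fun i => (hκ i).1, fun i z h ρ a b => ?_⟩
  have key : ∀ i (z : Ob B.T.A B.T.l (tauX S.n)) hz (ρ : Rep S.g S.n (deg S.D)),
      B.R.Rel i z.1 ρ.1 → (B.R.Ψ _ hX i ⟨z.pt, hz⟩).2 = ptX ρ := fun i z hz ρ b => by
    obtain ⟨p, e1, -, e2⟩ := (B.R.spec _ hX i z hz).2 _ b
    rw [e2, ← ptX_toR]
    exact congrArg ptX (Subtype.ext (congrArg Prod.snd e1))
  let z' : Ob B.T.A B.T.l (tauX S.n) := ⟨z.1, z.2.1, nk_top.le z.2.2⟩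
  have hz : z'.pt ∈ DR B.T.A B.T.l (deg S.D) (tauX S.n) (B.R.V i) :=
    ⟨h, a, by rw [R0]; exact P275NB.gen_zero S.adm.cop⟩
  obtain ⟨ρ', e⟩ := Quot.exists_rep (π ⟨z.pt, h⟩)
  obtain ⟨w, e1, e2⟩ := B.one ρ'
  have e3 : mvp S.p z'.pt = w.pt := by
    have := congrArg (fun f => (f ⟨z.pt, h⟩).1) hπ
    exact this.symm.trans ((congrArg (fun x => B.sg (1, x)) e.symm).trans e1.symm)
  have e4 := (hκ i).2 _ hz S.p (mem_DR hz B.R.hp)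
  rw [key i z' hz ρ b, psi_eq e3, key _ w _ ρ' e2] at e4
  rw [← e4, ← ptX_eq, Homeomorph.apply_symm_apply]
  exact e.symm

end Vale.Agent.P275BW
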