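import Vale.Agent.P275GQ.Geo
import Vale.Agent.P275MK.Fl
import Vale.Agent.P275XB.Inst
import Vale.Agent.P275NB.Bet
import Vale.Agent.P275HN.Fam

/-!
P275 (helper22): the Betti space without pole as a variety; the map which forgets the flag.
-/

set_option linter.all false

open scoped Manifold ContDiff Topology
open Set Filter Topology Function Matrix
open Vale.Agent.P272.K (Cm Chart At)
open Vale.Agent.P277Z (Hol at_chart)
open Vale.Agent.P281Z Vale.Agent.P275RG Vale.Agent.P275MK Vale.Agent.P275XB Vale.Agent.P275Z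
open Vale.Agent.P281Z.Hm (Mx)
open Vale.Agent.P275ST (Rep XB dimR)
open Vale.Agent.P275NB (toR ofR bet)
open Vale.Agent.P275MO (Ty)
open Vale.Agent.P275B (Vr)

noncomputable section

namespace Vale.Agent.P275B.Vr

variable {d : ℕ} (M : Vr d) {Y : Type} [TopologicalSpace Y] (φ : Y ≃ₜ M.X)

/-- the gluing data of a homeomorphism -/
abbrev gl : Gl d Y M.X where
  ι := Unit
  Φ _ := φ.toOpenPartialHomeomorph
  cov _ := ⟨(), trivial⟩
  hol _ _ _ _ _ := (holM_id.at _).cng (.of_forall fun y => (φ.apply_symm_apply y).symm)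

theorem gl_emb : letI := (M.gl φ).cs; Emb d d φ univ ∧ Emb d d φ.symm univ :=
  letI := (M.gl φ).cs
  haveI := (M.gl φ).mf
  have h1 : HolM d d φ := fun y => (M.gl φ).holΦ (i := ()) trivial
  have h2 : HolM d d φ.symm := fun y => (M.gl φ).hol_symm (i := ()) trivial
  ⟨⟨h1, φ.injective, fun y => .of_comp (h2.at _) (h1.at y)
      ((imm_id y).cng (.of_forall fun y => (φ.symm_apply_apply y).symm)), φ.range_coe⟩,
    h2, φ.symm.injective, fun y => .of_comp (h1.at _) (h2.at y)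
      ((imm_id y).cng (.of_forall fun y => (φ.apply_symm_apply y).symm)), φ.symm.range_coe⟩

/-- transport of the structure along a homeomorphism -/
def homeo : Vr d :=
  letI := (M.gl φ).cs
  haveI := (M.gl φ).mf
  { X := Y, t2 := φ.isEmbedding.t2Space, sc := φ.isEmbedding.secondCountableTopology
    cp := M.cp.comap (M.gl_emb φ).1 }

theorem homeo_emb : Emb d d (X := (M.homeo φ).X) φ univ := (M.gl_emb φ).1

theorem homeo_emb' : Emb d d (Y := (M.homeo φ).X) φ.symm univ := (M.gl_emb φ).2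

theorem homeo_alg : Alg (M.homeo φ).cp M.cp φ :=
  Ext.alg (c := (M.homeo φ).cp) (F := fun y => y) ⟨holM_id, fun _ => rfl⟩

theorem homeo_alg' : Alg M.cp (M.homeo φ).cp φ.symm :=
  Ext.alg (c' := (M.homeo φ).cp) (F := fun y => y)
    ⟨holM_id, fun y => congrArg M.cp.j (φ.apply_symm_apply y).symm⟩

theorem homeo_prj (h : M.cp.Y.Prj) : (M.homeo φ).cp.Y.Prj := h

end Vale.Agent.P275B.Vr

namespace Vale.Agent.P275BW

section QW

variable {m d k : ℕ} {E Q W : Type} [TopologicalSpace E] [ChartedSpace (Cm m) E]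
  [IsManifold 𝓘(ℂ, Cm m) ω E] [TopologicalSpace Q] [ChartedSpace (Cm d) Q]
  [IsManifold 𝓘(ℂ, Cm d) ω Q] [TopologicalSpace W] [ChartedSpace (Cm k) W]
  [IsManifold 𝓘(ℂ, Cm k) ω W] {cE : Cp m E} {cQ : Cp d Q} {cW : Cp k W} {π : E → Q}

variable (cE cQ π) in
/-- an algebraic quotient -/
structure QW : Prop where
  alg : Alg cE cQ π
  onto : Surjective π
  sbm : ∀ a, Sbm m d π a

theorem QV.qw (h : QV m d cE cQ π) : QW cE cQ π := ⟨h.alg, h.onto, h.sbm⟩

namespace QW

variable (h : QW cE cQ π)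
include h

theorem hol : HolM m d π := h.alg.hol

theorem isOpenMap : IsOpenMap π :=
  isOpenMap_iff_nhds_le.2 fun a => ((h.sbm a).map_nhds (h.hol.at a)).ge

theorem isQuotientMap : IsQuotientMap π := h.isOpenMap.isQuotientMap h.hol.cont h.onto

theorem hol_desc {g : Q → W} (hg : HolM m k fun a => g (π a)) : HolM d k g := fun q =>
  let ⟨a, e⟩ := h.onto q
  e ▸ (h.sbm a).desc (h.hol.at a) (hg.at a)

theorem alg_desc {g : Q → W} (hg : Alg cE cW fun a => g (π a)) : Alg cQ cW g :=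
  h.alg.desc h.onto (h.hol_desc hg.hol) hg

theorem reg_desc {t : Q → ℂ} (ht : Reg cE fun a => t (π a)) : Reg cQ t :=
  (alg_iff_reg (t := fun x (_ : Fin 1) => t x)).1 (h.alg_desc (alg_iff_reg.2 fun _ => ht)) 0

theorem zc_desc {Z : Set Q} (hZ : Zc cE (π ⁻¹' Z)) : Zc cQ Z :=
  image_preimage_eq Z h.onto ▸ hZ.img h.alg
    ((image_preimage_eq Z h.onto).symm ▸ h.isQuotientMap.isClosed_preimage.1 hZ.closed)

end QW

end QW

variable {g n : ℕ} {d : ℤ} {m : ℕ} {U : Type} [TopologicalSpace U] [ChartedSpace (Cm m) U]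
  [IsManifold 𝓘(ℂ, Cm m) ω U] {c : Cp m U}

theorem reg_mul {M N : U → Mx (Fin n)} (h : ∀ a b, Reg c fun u => M u a b)
    (k : ∀ a b, Reg c fun u => N u a b) (a b : Fin n) : Reg c fun u => (M u * N u) a b := by
  simpa only [mul_apply] using Reg.sum Finset.univ fun e _ => (h a e).mul (k e b)

theorem reg_det {M : U → Mx (Fin n)} (h : ∀ a b, Reg c fun u => M u a b) :
    Reg c fun u => (M u).det := by
  simpa only [det_apply'] using Reg.sum Finset.univ fun σ _ =>
    (Reg.const c _).mul (Reg.prod Finset.univ fun a _ => h (σ a) a)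

theorem reg_adj {M : U → Mx (Fin n)} (h : ∀ a b, Reg c fun u => M u a b) (a b : Fin n) :
    Reg c fun u => adjugate (M u) a b := by
  simp only [adjugate_apply]
  refine reg_det fun i j => ?_
  simp only [updateRow_apply]
  split_ifs
  exacts [.const c _, h i j]

/-- the values of words are regular -/
theorem reg_wv {ρ : U → Tup g n} (h : ∀ s a b, Reg c fun u => (ρ u s).1 a b)
    (w : FreeGroup (Fin g × Bool)) : ∀ a b, Reg c fun u => wv (ρ u) w a b := by
  induction w using FreeGroup.induction_on with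
  | C1 => exact fun a b => by simpa only [wv, map_one] using Reg.const c _
  | of s => simpa only [wv, FreeGroup.lift_apply_of] using h s
  | inv_of s _ => simp only [wv, map_inv, FreeGroup.lift_apply_of]; exact reg_adj (h s)
  | mul v w hv hw => simp only [wv, map_mul]; exact reg_mul hv hw

variable [h : Ok g n d]

variable (g n d) in
/-- the character variety -/
def vXB : Vr (2 * dimR g n) := { X := XB g n d, cp := cX g n d }

variable (g n d) in
/-- the variety of representations -/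
def vR : Vr (dimZ g n) := { X := Rep g n d, t2 := (cR g n d).t2, sc := (cR g n d).sc, cp := cR g n d }

variable (g n d) in
/-- the Betti space without pole is the character variety -/
def bx : Bet g d (tauX n) ≃ₜ XB g n d := bet (Nat.pos_of_ne_zero h.hn) h.cop

variable (g n d) in
/-- the Betti space without pole -/
def vX : Vr (2 * dimR g n) := (vXB g n d).homeo (bx g n d)

theorem vX_prj : (vX g n d).cp.Y.Prj := c_spec.2.1

theorem alg_bx : Alg (vX g n d).cp (cX g n d) (bx g n d) := (vXB g n d).homeo_alg _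

theorem alg_bx' : Alg (cX g n d) (vX g n d).cp (bx g n d).symm := (vXB g n d).homeo_alg' _

theorem emb_bx : Emb (2 * dimR g n) (2 * dimR g n) (X := (vX g n d).X) (bx g n d) univ :=
  (vXB g n d).homeo_emb _

theorem emb_bx' : Emb (2 * dimR g n) (2 * dimR g n) (Y := (vX g n d).X) (bx g n d).symm univ :=
  (vXB g n d).homeo_emb' _

/-- the point of a representation -/
def ptX (ρ : Rep g n d) : Bet g d (tauX n) := (ofR h.cop ρ).pt _

theorem ptX_eq (ρ : Rep g n d) : (bx g n d).symm ρ.pt = ptX ρ := rfl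

theorem ptX_toR (p : BFr g d (tauX n).q) : ptX (toR p) = p.pt _ := (bx g n d).symm_apply_apply (p.pt _)

theorem qw_pt : QW (cR g n d) (cX g n d) Rep.pt := ⟨alg_pt, Quot.mk_surjective, sbm_pt⟩

theorem qwX : QW (cR g n d) (vX g n d).cp ptX :=
  ⟨alg_bx'.comp alg_pt, (bx g n d).symm.surjective.comp Quot.mk_surjective, fun ρ =>
    .comp (Z := (vX g n d).X) (f := Rep.pt) (g := (bx g n d).symm) (emb_bx'.hol.at _) (hol_pt.at ρ)
      ((imm_iff_sbm (Y := (vX g n d).X)).1 (emb_bx'.imm _)) (sbm_pt ρ)⟩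

theorem co_eq {f : U → Rep g n d} {P : (U → ℂ) → Prop} (hf : ∀ s a b, P fun u => ((f u).1 s).1 a b)
    (k) : P fun u => co (ep (f u)) k := by
  obtain ⟨q, rfl⟩ := (Fintype.equivFin ((Fin g × Bool) × Fin n × Fin n)).surjective k
  simpa only [co_apply, ep] using hf q.1 q.2.1 q.2.2

theorem hol_rep {f : U → Rep g n d} {u : U} (hf : ∀ s a b, Hol m (fun u => ((f u).1 s).1 a b) u) :
    HolA m (dimZ g n) f u :=
  emb_lift embR.hol embR.imm (pk g n d).indR.isInducing
    (holA_iff.2 (co_eq (P := fun t => Hol m t u) hf))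

theorem alg_rep {f : U → Rep g n d} (hf : ∀ s a b, Reg c fun u => ((f u).1 s).1 a b) :
    Alg c (cR g n d) f :=
  alg_of_reg c_spec.2.2.1 (pk g n d).indR.isInducing embR.imm (co_eq hf)

/-- families of framed objects with regular entries give algebraic maps -/
theorem alg_toX {f : U → BFr g d (tauX n).q} (hf : ∀ s a b, Reg c fun u => ((f u).1.2 s).1 a b) :
    Alg c (vX g n d).cp fun u => (f u).pt (tauX n) := by
  simpa only [ptX_toR] using qwX.alg.comp (alg_rep (f := fun u => toR (f u)) hf)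

/-- the changes of the marking act algebraically -/
theorem alg_autX (t : Aut g n) {G : Bet g d (tauX n) → Bet g d (tauX n)}
    (hG : ∀ p : BFr g d (tauX n).q, ∃ p' : BFr g d (tauX n).q, t.Im p.1.2 p'.1.2 ∧
      G (p.pt _) = p'.pt _) : Alg (vX g n d).cp (vX g n d).cp G := by
  choose f h1 h2 using hG
  refine qwX.alg_desc ?_
  simp only [ptX, h2]
  refine alg_toX fun s a b => ?_
  simp only [h1 _ s]
  exact (Reg.const _ _).mul (reg_wv (ρ := fun u : Rep g n d => u.1) reg_ep _ a b)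

theorem ex_cj {σ : Mx (Fin n)} (hσ : σ.det ≠ 0) (ρ : Rep g n d) :
    ∃ ρ' : Rep g n d, Cj σ ρ.1 ρ'.1 := by
  obtain ⟨P, e⟩ := exists_sl (ι := Fin g × Bool) h.hn (GeneralLinearGroup.mkOfDetNeZero σ hσ)⁻¹
  exact ⟨act P ρ, fun s => (congrFun ((ep_act P ρ).trans (e _).symm) s).trans (by
    simp [cj, ep])⟩

theorem ptX_iff {ρ ρ' : Rep g n d} : ptX ρ = ptX ρ' ↔ ∃ σ : Mx (Fin n), σ.det ≠ 0 ∧ Cj σ ρ.1 ρ'.1 :=
  ((bx g n d).symm.injective.eq_iff (a := ρ.pt) (b := ρ'.pt)).trans (P275NB.rep_pt_eq.trans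
    ⟨fun e => let ⟨σ, a, b⟩ := P275NB.conj_cj e; ⟨σ, a ▸ one_ne_zero, b⟩,
      fun ⟨_, a, b⟩ => P275NB.cj_conj (Nat.pos_of_ne_zero h.hn) a b⟩)

/-- conjugation by an invertible matrix -/
def cjR (σ : {σ : Mx (Fin n) // σ.det ≠ 0}) (ρ : Rep g n d) : Rep g n d := (ex_cj σ.2 ρ).choose

theorem cjR_cj (σ : {σ : Mx (Fin n) // σ.det ≠ 0}) (ρ : Rep g n d) : Cj σ.1 ρ.1 (cjR σ ρ).1 :=
  (ex_cj σ.2 ρ).choose_spec

theorem cont_cjR : Continuous fun z : {σ : Mx (Fin n) // σ.det ≠ 0} × Rep g n d => cjR z.1 z.2 := by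
  have h1 := (pk g n d).emb
  have h2 : Continuous fun z : {σ : Mx (Fin n) // σ.det ≠ 0} × Rep g n d => z.1.1 := by fun_prop
  refine h1.isInducing.continuous_iff.2 (continuous_pi fun s => ?_)
  simp only [Function.comp_apply, ep, cjR_cj _ _ s, inv_def, Ring.inverse_eq_inv']
  exact (((h2.matrix_det.inv₀ fun z => z.1.2).smul h2.matrix_adjugate).matrix_mul
    ((continuous_apply s).comp (h1.continuous.comp continuous_snd))).matrix_mul h2

variable {τ : Ty n} (hq : ∀ R ∈ τ.q, R = 0)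

variable (τ) in
/-- the framed object of a representation -/
def frR (ρ : Rep g n d) : BFr g d τ.q := ⟨(ofR h.cop ρ).1, τ.q.zero_mem, (ofR h.cop ρ).2.2⟩

theorem cont_frR : Continuous (frR τ : Rep g n d → _) :=
  (continuous_const.prodMk continuous_subtype_val).subtype_mk _

include hq in
theorem frR_onto : Surjective (frR τ : Rep g n d → _) := fun p =>
  ⟨toR ⟨p.1, hq _ p.2.1, p.2.2⟩, Subtype.ext (Prod.ext (hq _ p.2.1).symm rfl)⟩

include hq in
theorem ptR_onto : Surjective fun ρ : Rep g n d => (frR τ ρ).pt τ :=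
  Quot.mk_surjective.comp (frR_onto hq)

theorem ptR_eq {ρ ρ' : Rep g n d} {σ : Mx (Fin n)} (h1 : σ ∈ τ.H) (h2 : σ.det ≠ 0)
    (h3 : Cj σ ρ.1 ρ'.1) : (frR τ ρ).pt τ = (frR τ ρ').pt τ :=
  Quot.sound ⟨σ, h1, h2, by simp [frR, ofR], h3⟩

/-- the map which forgets the frame -/
def fgt : Bet g d τ → Bet g d (tauX n) :=
  Quot.map (fun p => ⟨p.1, hq _ p.2.1, p.2.2⟩) fun _ _ ⟨σ, _, e⟩ => ⟨σ, trivial, e⟩

theorem fgt_pt (ρ : Rep g n d) : fgt hq ((frR τ ρ).pt τ) = ptX ρ := rfl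

variable {G : Bet g d τ → Bet g d (tauX n)} (hG : ∀ ρ : Rep g n d, G ((frR τ ρ).pt τ) = ptX ρ)
include hq hG

theorem fgt_eq : G = fgt hq := funext fun y => let ⟨ρ, e⟩ := ptR_onto hq y; e ▸ hG ρ

theorem fgt_cont : Continuous G := fgt_eq hq hG ▸
  continuous_quot_lift _ (continuous_quot_mk.comp (continuous_subtype_val.subtype_mk _))

omit hq in
theorem fgt_onto : Surjective G := fun x => let ⟨ρ, e⟩ := qwX.onto x; ⟨_, (hG ρ).trans e⟩

theorem fgt_open : IsOpenMap G :=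
  .of_comp (continuous_quot_mk.comp cont_frR) (ptR_onto hq)
    ((funext hG : G ∘ _ = ptX).symm ▸ qwX.isOpenMap)

/-- **The map which forgets the flag is proper** -/
theorem fgt_proper (hH : bor n ≤ τ.H) : IsProperMap G := by
  haveI : T2Space (Bet g d (tauX n)) := (vX g n d).t2
  haveI := (bx g n d).isOpenEmbedding.locallyCompactSpace
  refine isProperMap_iff_isCompact_preimage.2 ⟨fgt_cont hq hG, fun K hK => ?_⟩
  obtain ⟨L, h1, h2⟩ := (pk g n d).cpt (hK.image (closedX.continuous.comp (bx g n d).continuous))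
  obtain ⟨C, h3, h4, h5⟩ := P275HN.coc hH
  have h6 : IsCompact ((↑) ⁻¹' C : Set {σ : Mx (Fin n) // σ.det ≠ 0}) :=
    IsEmbedding.subtypeVal.isCompact_preimage_iff (fun σ k => ⟨⟨σ, h4 σ k⟩, rfl⟩) |>.2 h3
  refine ((h6.prod h1).image (continuous_quot_mk.comp (cont_frR.comp cont_cjR))).of_isClosed_subset
    (hK.isClosed.preimage (fgt_cont hq hG)) fun y hy => ?_
  obtain ⟨ρ, rfl⟩ := ptR_onto hq y
  obtain ⟨ρ', k1, k2⟩ := h2 (a := ρ.pt) ⟨_, (hG ρ).subst (motive := (· ∈ K)) hy, rfl⟩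
  obtain ⟨σ, k3, k4⟩ := ptX_iff.1 (congrArg (bx g n d).symm k2)
  obtain ⟨u, k5, β, k6, rfl⟩ := h5 σ k3
  refine ⟨(⟨u, h4 u k5⟩, ρ'), ⟨k5, k1⟩, ptR_eq k6 (right_ne_zero_of_mul (det_mul u β ▸ k3))
    fun s => ?_⟩
  rw [k4 s, cjR_cj _ _ s, Matrix.mul_inv_rev]
  simp only [Matrix.mul_assoc]

section man

variable {e : ℕ} [ChartedSpace (Cm m) (BFr g d τ.q)] [IsManifold 𝓘(ℂ, Cm m) ω (BFr g d τ.q)]
  [ChartedSpace (Cm e) (Bet g d τ)] [IsManifold 𝓘(ℂ, Cm e) ω (Bet g d τ)]
  {cE : Cp m (BFr g d τ.q)} {cQ : Cp e (Bet g d τ)} (hQ : QW cE cQ (BFr.pt τ))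
include hQ

/-- **The map which forgets the flag is algebraic** -/
theorem fgt_alg (hE : ∀ s a b, Reg cE fun p => (p.1.2 s).1 a b) : Alg cQ (vX g n d).cp G :=
  fgt_eq hq hG ▸ hQ.alg_desc (alg_toX (f := fun p : BFr g d τ.q => ⟨p.1, hq _ p.2.1, p.2.2⟩) hE)

theorem fgt_sbm (hE : ∀ s a b, Reg cE fun p => (p.1.2 s).1 a b)
    (hR : HolM (dimZ g n) m (frR τ : Rep g n d → _)) (y : Bet g d τ) :
    Sbm e (2 * dimR g n) (Y := (vX g n d).X) G y :=
  let ⟨ρ, k⟩ := ptR_onto hq y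
  k ▸ .of_comp (f := fun ρ => (frR τ ρ).pt τ) ((fgt_alg hq hG hQ hE).hol.at _) ((hQ.hol.comp hR).at ρ)
    ((qwX.sbm ρ).cng (.of_forall fun ρ => (hG ρ).symm))

end man

end Vale.Agent.P275BW
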