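import Vale.Agent.P275GQ.Prj
import Vale.Agent.P275BW.Defs

/-!
P275 (helper22): quotients with rational slices are quasi-projective manifolds.
-/

set_option linter.all false

open scoped Manifold ContDiff Topology
open Set Filter Topology Function MvPolynomial
open Vale.Agent.P272.K (Cm Chart At)
open Vale.Agent.P277Z (Hol at_chart)
open Vale.Agent.P281Z Vale.Agent.P275RG Vale.Agent.P275GQ
open P275BC (ZC qm)
open P275QV (Par an_eval an_coord)

noncomputable section

namespace Vale.Agent.P275BW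

variable {ι κ γ : Type} [Fintype ι] {m d k : ℕ} {E Q W : Type} [TopologicalSpace E]
  [TopologicalSpace Q] [TopologicalSpace W] [ChartedSpace (Cm k) W] [IsManifold 𝓘(ℂ, Cm k) ω W]
  {ε : E → ι → ℂ}

/-- numbered coordinates -/
def num (x : ι → ℂ) : Cm (Fintype.card ι) := fun k => x ((Fintype.equivFin ι).symm k)

theorem num_apply (x : ι → ℂ) (i : ι) : num x (Fintype.equivFin ι i) = x i := by simp [num]

theorem num_emb : IsEmbedding (num : (ι → ℂ) → _) :=
  LeftInverse.isEmbedding (f := fun v i => v (Fintype.equivFin ι i)) (fun x => funext (num_apply x))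
    (by fun_prop) (by unfold num; fun_prop)

theorem holA_num {t : W → ι → ℂ} {w : W} (h : AnV k t w) :
    HolA k (Fintype.card ι) (fun w => num (t w)) w :=
  holA_iff.2 fun _ => h.hol _

theorem anV_self {F : Type} [NormedAddCommGroup F] [NormedSpace ℂ F] {a : Cm k → F} {v : Cm k}
    (h : AnalyticAt ℂ a v) : AnV k a v := (AnV.pi fun i => hol_crd i v).cmp h

theorem afv : AFV := fun ι _ m E _ ε A B h1 h2 hA hB hr hp => by
  have h3 : IsEmbedding fun a => num (ε a) := num_emb.comp ⟨h1, h2⟩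
  obtain ⟨i1, i2, h4⟩ := exists_cs h3 (subM_of_par (N := Fintype.card ι) (d := m) h3.isInducing
    fun a => by
    haveI : Nonempty E := ⟨a⟩
    obtain ⟨φ, ψ, a1, a2, a3, a4, a5⟩ := hp a
    have e : ∀ᶠ z in 𝓝 (ψ (ε a)), num (φ z) = num (ε (invFun ε (φ z))) :=
      a4.mono fun z hz => congrArg num (invFun_eq hz.1).symm
    have b1 := holA_num (anV_self a1)
    refine ⟨fun z => invFun ε (φ z), ψ (ε a),
      (congrArg (invFun ε) a3).trans (leftInverse_invFun h2 a), b1.cng e,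
      (Imm.of_comp (g := fun v => ψ fun i => v (Fintype.equivFin ι i)) (holA_iff.2 (AnV.hol
        ((AnV.pi fun i => hol_crd _ _).cmp (by simpa only [num_apply, a3] using a2)))) b1
        ((imm_id _).cng (a4.mono fun z hz => by simpa only [num_apply] using hz.2.symm))).cng e,
      fun U hU => ?_⟩
    filter_upwards [h1.continuous.continuousAt (a2.continuousAt hU),
      h1.continuous.continuousAt.eventually a5] with b c1 c2
    rwa [mem_preimage, mem_preimage, mem_preimage, c2 (mem_range_self b), leftInverse_invFun h2] at c1)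
  have h5 : ∀ i, Reg (cA _) fun v : Cm (Fintype.card ι) => v (Fintype.equivFin ι i) :=
    fun _ => reg_crd _
  obtain ⟨c, c1, c2⟩ := aff (zc_of_ZC h5 hA) (zc_of_ZC h5 hB) ⟨h4.hol, h4.inj, h4.imm, by
    rw [← preimage_diff, ← hr]
    ext v
    exact ⟨fun ⟨a, e⟩ => ⟨a, funext fun i => e ▸ (num_apply _ _).symm⟩,
      fun ⟨a, e⟩ => ⟨a, funext fun k => by simp [num, e]⟩⟩⟩ h3.isInducing
  exact ⟨i1, i2, c, h1, h2, c1, fun i => by simpa only [num_apply] using c2 (Fintype.equivFin ι i),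
    h4.imm⟩

variable [ChartedSpace (Cm m) E] [IsManifold 𝓘(ℂ, Cm m) ω E] {cE : Cp m E} {cW : Cp k W}

namespace AV

variable (h : AV m ε cE)
include h

theorem ind' : IsInducing fun a => num (ε a) := num_emb.isInducing.comp h.ind

theorem anV (a : E) : AnV m ε a := .pi fun i => (h.reg i).hol a

/-- a map to `E` is holomorphic if its coordinates are -/
theorem holA {g : W → E} {w : W} (hg : AnV k (fun w => ε (g w)) w) : HolA k m g w :=
  emb_lift (fun a => holA_num (h.anV a)) h.imm h.ind' (holA_num hg)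

/-- a map to `E` is algebraic if its coordinates are regular -/
theorem alg {g : W → E} (hg : ∀ i, Reg cW fun w => ε (g w) i) : Alg cW cE g :=
  alg_of_reg (fun _ => h.reg _) h.ind' h.imm fun _ => hg _

theorem zc {C : Set (ι → ℂ)} (hC : ZC C) : Zc cE (ε ⁻¹' C) := zc_of_ZC h.reg hC

/-- regular functions in the sense of the cell block are regular -/
theorem reg' {S : Set (ι → ℂ)} {t : (ι → ℂ) → ℂ} (ht : P275BC.Reg S t) {g : W → E}
    (hg : Alg cW cE g) (hS : ∀ w, ε (g w) ∈ S) : Reg cW fun w => t (ε (g w)) :=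
  .of_rat (fun i => (h.reg i).comp hg) fun w =>
    let ⟨P, Q, a, b⟩ := ht _ (hS w)
    ⟨P, Q, a, fun x => b _ (hS x)⟩

end AV

theorem geo0 {N : ℕ} [Finite γ] {π : E → Q} {r : (ι → ℂ) → (ι → ℂ) → Prop}
    {f : Fin (N + 1) → MvPolynomial ι ℂ} {z : γ → Fin (N + 1)} {y : γ → ι → Fin (N + 1)}
    {A B : Set (ι → ℂ)} (hE : AV m ε cE) (hA : ZC A) (hB : ZC B) (hr : range ε = A \ B)
    (P : PQ r (range ε) f z y) (hq : IsQuotientMap π) (hf : ∀ a b, π a = π b ↔ r (ε a) (ε b))
    (hp : ∀ c, ∀ x ∈ Sl (range ε) f z y c, Par d (Sl (range ε) f z y c) x) :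
    ∃ (_ : ChartedSpace (Cm d) Q) (_ : IsManifold 𝓘(ℂ, Cm d) ω Q) (cQ : Cp d Q), QV m d cE cQ π := by
  obtain ⟨S⟩ := Pb.psex N
  have nz : ∀ x ∈ range ε, qm f x ≠ 0 := fun x hx => (P.cov x hx).elim fun c h => ne_iff.2 ⟨z c, h⟩
  obtain ⟨τ, hτ⟩ : ∃ τ : Q → S.P.X, ∀ a, τ (π a) = S.pt (qm f (ε a)) :=
    ⟨fun q => S.pt (qm f (ε (surjInv hq.surjective q))), fun a => by
      obtain ⟨-, c, h1, h2⟩ := P.hom _ (mem_range_self a) _
        ((hf _ _).1 (surjInv_eq hq.surjective (π a)).symm)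
      exact (congrArg S.pt h2).trans (S.pt_smul h1 (nz _ (mem_range_self a)))⟩
  let σ : γ → S.P.X → ι → ℂ := fun c p i => rat S (z c) p (y c i)
  have σpt : ∀ c, ∀ x ∈ range ε, σ c (S.pt (qm f x)) = sl f z y c x := fun c x hx =>
    funext fun i => rat_pt (nz x hx) _
  have anσ : ∀ c p, p ∉ hyp S (z c) → AnV N (σ c) p := fun c p h => .pi fun i => hol_rat h _
  have ex : ∀ c q, ∃ b, τ q ∉ hyp S (z c) → ε b = σ c (τ q) ∧ π b = q := fun c q => by
    obtain ⟨a, rfl⟩ := hq.surjective q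
    by_cases h : eval (ε a) (f (z c)) = 0
    · exact ⟨a, fun h' => (h' (hτ a ▸ (hyp_pt (nz _ (mem_range_self a))).2 h)).elim⟩
    · have h1 := P.sec _ (mem_range_self a) c h
      obtain ⟨b, hb⟩ := (P.hom _ (mem_range_self a) _ h1).1
      exact ⟨b, fun _ => ⟨by rw [hτ, σpt c _ (mem_range_self a), hb], ((hf a b).2 (hb ▸ h1)).symm⟩⟩
  choose ς hς using ex
  have cov : ∀ q, ∃ c, τ q ∉ hyp S (z c) := fun q => by
    obtain ⟨a, rfl⟩ := hq.surjective q
    exact (P.cov _ (mem_range_self a)).imp fun c h => hτ a ▸ mt (hyp_pt (nz _ (mem_range_self a))).1 h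
  have hSl : ∀ c q, τ q ∉ hyp S (z c) → σ c (τ q) ∈ Sl (range ε) f z y c := fun c q h => by
    obtain ⟨h1, h2⟩ := hς c q h
    have h3 := hτ (ς c q)
    rw [h2] at h3
    rw [← h1]
    exact ⟨mem_range_self _, mt (hyp_pt (nz _ (mem_range_self _))).2 (h3 ▸ h),
      by rw [← σpt c _ (mem_range_self _), ← h3, h1]⟩
  have alg : Alg cE (cP S) fun a => τ (π a) := (funext hτ).symm ▸
    alg_pt (fun k => .eval hE.reg (f k)) fun a => nz _ (mem_range_self a)
  have cont : Continuous τ := hq.continuous_iff.2 alg.cont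
  have opn : ∀ c, IsOpen (hyp S (z c))ᶜ := fun c => (an_hyp _).closed.isOpen_compl
  have emb : IsEmbedding τ := by
    refine ⟨isInducing_iff_nhds.2 fun q => le_antisymm (cont.tendsto q).le_comap ?_, fun q q' e => ?_⟩
    · obtain ⟨c, hc⟩ := cov q
      have h1 : ∀ᶠ q' in comap τ (𝓝 (τ q)), τ q' ∉ hyp S (z c) :=
        tendsto_comap.eventually ((opn c).eventually_mem hc)
      have h2 : Tendsto (ς c) (comap τ (𝓝 (τ q))) (𝓝 (ς c q)) := by
        rw [hE.ind.tendsto_nhds_iff, (hς c q hc).1]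
        exact ((anσ c _ hc).cont.tendsto.comp tendsto_comap).congr'
          (h1.mono fun q' h => (hς c q' h).1.symm)
      have h3 := ((hq.continuous.tendsto _).comp h2).congr' (h1.mono fun q' h => (hς c q' h).2)
      rw [(hς c q hc).2] at h3
      exact tendsto_id'.1 h3
    · obtain ⟨c, hc⟩ := cov q
      rw [← (hς c q hc).2, ← (hς c q' (e ▸ hc)).2,
        hE.inj ((hς c q hc).1.trans (e ▸ (hς c q' (e ▸ hc)).1.symm))]
  obtain ⟨i1, i2, hQ⟩ := exists_cs emb (subM_of_par (d := d) emb.isInducing fun q => by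
    obtain ⟨c, hc⟩ := cov q
    haveI : Nonempty E := ⟨ς c q⟩
    obtain ⟨φ, ψ, a1, a2, a3, a4, a5⟩ := hp c _ (hSl c q hc)
    have e : ∀ᶠ u in 𝓝 (ψ (σ c (τ q))), S.pt (qm f (φ u)) = τ (π (invFun ε (φ u))) :=
      a4.mono fun u hu => by rw [hτ, invFun_eq hu.1.1]
    have e0 : ∀ q', τ q' ∉ hyp S (z c) → π (invFun ε (σ c (τ q'))) = q' := fun q' h => by
      rw [← (hς c q' h).1, leftInverse_invFun hE.inj, (hς c q' h).2]
    have e1 : S.pt (qm f (φ (ψ (σ c (τ q))))) = τ q := by rw [e.self_of_nhds, a3, e0 q hc]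
    have b1 : HolA d N (fun u => S.pt (qm f (φ u))) (ψ (σ c (τ q))) :=
      S.holA (fun k => hol_self.2 ((an_eval _ _).fun_comp a1)) (nz _ a4.self_of_nhds.1.1)
    refine ⟨fun u => π (invFun ε (φ u)), ψ (σ c (τ q)),
      (congrArg (fun x => π (invFun ε x)) a3).trans (e0 q hc), b1.cng e,
      (Imm.of_comp (g := fun p => ψ (σ c p)) (e1.symm ▸ holA_iff.2 ((anσ c _ hc).cmp a2).hol) b1
        ((imm_id _).cng (a4.mono fun u hu => by rw [σpt c _ hu.1.1, hu.1.2.2, hu.2]))).cng e,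
      fun U hU => ?_⟩
    have b2 := (anσ c _ hc).cont.comp cont.continuousAt
    filter_upwards [b2 (a2.continuousAt hU), b2.eventually a5,
      cont.continuousAt.eventually ((opn c).eventually_mem hc)] with q' c1 c2 c3
    have c4 : π (invFun ε (φ (ψ (σ c (τ q'))))) ∈ U := c1
    rwa [show φ (ψ (σ c (τ q'))) = σ c (τ q') from c2 (hSl c q' c3), e0 q' c3] at c4)
  have zc : ∀ c {C : Set (ι → ℂ)}, ZC C → ZC {w : Cm (N + 1) | (fun i => w (y c i)) ∈ C} :=
    fun c C hC => by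
    obtain ⟨C', h1, h2⟩ := hC.pre (S := univ) (F := fun w i => w (y c i)) fun i => .coord _
    exact (Set.ext fun w => h2 w trivial : C' = _) ▸ h1
  have zc' : ∀ c, ZC (⋂ k, {w : Cm (N + 1) | eval w (aeval (fun i => X (y c i)) (f k) -
      aeval (fun i => X (y c i)) (f (z c)) * X k : MvPolynomial _ ℂ) = 0}) :=
    fun c => .iInter fun k => .poly _
  obtain ⟨cQ, F, hF, prj, -⟩ := (cP S).sub
    (zc_self _ (.iInter fun c => an_chart ((zc c hA).inter (zc' c)) (z c)))
    (zc_self _ (.iInter fun c => an_chart (zc c hB) (z c))) ⟨hQ.hol, hQ.inj, hQ.imm, by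
      ext p
      simp only [mem_diff, mem_iInter, mem_setOf_eq, mem_inter_iff, or_iff_not_imp_left, map_sub,
        map_mul, eval_X, sub_eq_zero, aeval_eq_bind₁, ← aeval_eq_eval, aeval_bind₁, aeval_X]
      simp only [aeval_eq_eval]
      refine ⟨?_, fun ⟨h1, h2⟩ => ?_⟩
      · rintro ⟨q, rfl⟩
        refine ⟨fun c hc => ⟨(hr.le (hSl c q hc).1).1, fun k => ?_⟩, fun h =>
          (cov q).elim fun c hc => (hr.le (hSl c q hc).1).2 (h c hc)⟩
        have h3 := hτ (ς c q)
        rw [(hς c q hc).1, (hς c q hc).2] at h3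
        rw [show rat S (z c) (τ q) k = _ from (congrArg (rat S (z c) · k) h3).trans
          (rat_pt (nz _ (hSl c q hc).1) k)]
        exact (mul_div_cancel₀ _ (hSl c q hc).2.1).symm
      · obtain ⟨c, h3⟩ := not_forall.1 h2
        obtain ⟨h3, h4⟩ := Classical.not_imp.1 h3
        obtain ⟨a, ha⟩ := hr.ge ⟨(h1 c h3).1, h4⟩
        refine ⟨π a, (hτ a).trans (Eq.trans ?_ (pt_rat h3).2)⟩
        exact (S.pt_eq_iff (nz _ (mem_range_self a)) (pt_rat h3).1).2
          ⟨_, funext fun k => ha ▸ (h1 c h3).2 k⟩⟩ emb.isInducing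
  have algπ : Alg cE cQ π := hF.alg.lift emb.isInducing hQ.imm alg
  refine ⟨i1, i2, cQ, prj S.prj, algπ, hq.surjective, fun a => ?_, fun q => ?_⟩
  · haveI : Nonempty E := ⟨a⟩
    obtain ⟨c, hc⟩ := cov (π a)
    obtain ⟨g, g1, g2, g3⟩ := P.mov _ (mem_range_self a) _ ((hf _ _).1 (hς c _ hc).2.symm)
    have h1 := cont.continuousAt.eventually ((opn c).eventually_mem hc)
    have h2 : ∀ q, ε (invFun ε (g (ε (ς c q)))) = g (ε (ς c q)) := fun q =>
      invFun_eq (P.hom _ (mem_range_self _) _ (g3 _ (mem_range_self _))).1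
    have h3 : HolA d m (ς c) (π a) := hE.holA fun e he =>
      (AnV.pi (fun i => hQ.hol.hol ((anσ c _ hc).hol i)) e he).congr
        ((at_ev he h1).mono fun u hu => (hς c _ hu).1.symm)
    have h4 : HolA d m (fun q => invFun ε (g (ε (ς c q)))) (π a) := hE.holA (by
      simpa only [h2] using (AnV.pi fun i => h3.hol ((hE.reg i).hol _)).cmp g1)
    have h5 : invFun ε (g (ε (ς c (π a)))) = a := hE.inj ((h2 _).trans g2)
    have h6 := Sbm.of_comp (f := fun q => invFun ε (g (ε (ς c q)))) (x := π a) (algπ.hol.at _) h4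
      ((sbm_id _).cng (h1.mono fun q hq' => (hς c q hq').2.symm.trans
        ((hf _ _).2 ((h2 q).symm ▸ g3 _ (mem_range_self _)))))
    rwa [h5] at h6
  · obtain ⟨c, hc⟩ := cov q
    let O : TopologicalSpace.Opens Q := ⟨τ ⁻¹' (hyp S (z c))ᶜ, (opn c).preimage cont⟩
    have h1 : Zc cQ (O : Set Q)ᶜ :=
      (compl_compl (τ ⁻¹' hyp S (z c))).symm ▸ (zc_self _ (an_hyp (z c))).ext hF
    obtain ⟨cO, G, hG, -⟩ := cQ.compl h1 ((compl_compl (O : Set Q)).symm ▸ opens_emb O)
    refine ⟨O, cO, fun u => ς c u, hc, h1, hG.alg, hE.alg fun i => ?_, fun u => (hς c _ u.2).2⟩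
    simpa only [fun u : O => (hς c _ u.2).1] using reg_rat (hF.comp hG).alg (fun u => u.2) (y c i)

theorem geo : GEO := fun ι κ γ _ _ _ m d E Q _ _ _ _ ε cE π r f z y A B hE hA hB hr P hq hf hp => by
  obtain ⟨N, ⟨e⟩⟩ := Finite.exists_equiv_fin κ
  let F : Fin (N + 1) → MvPolynomial ι ℂ := Fin.cons 0 fun k => f (e.symm k)
  have hF : ∀ k, F (e k).succ = f k := fun k => by simp [F]
  have h1 : sl F (fun c => (e (z c)).succ) (fun c i => (e (y c i)).succ) = sl f z y := by
    ext c x i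
    simp only [sl, hF]
  refine geo0 (f := F) (z := fun c => (e (z c)).succ) (y := fun c i => (e (y c i)).succ) hE hA hB hr
    ⟨fun x hx x' h => ?_, by simpa only [hF] using P.cov, by simpa only [hF, h1] using P.sec, P.mov⟩
    hq hf (by simpa only [Sl, hF, h1] using hp)
  obtain ⟨h2, c, h3, h4⟩ := P.hom x hx x' h
  exact ⟨h2, c, h3, funext fun k => Fin.cases (by simp [F, qm]) (fun k => congrFun h4 (e.symm k)) k⟩

namespace QV

variable [ChartedSpace (Cm d) Q] [IsManifold 𝓘(ℂ, Cm d) ω Q] {cQ : Cp d Q} {π : E → Q}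
  (h : QV m d cE cQ π)
include h

theorem hol : HolM m d π := h.alg.hol

theorem isOpenMap : IsOpenMap π :=
  isOpenMap_iff_nhds_le.2 fun a => ((h.sbm a).map_nhds (h.hol.at a)).ge

theorem isQuotientMap : IsQuotientMap π := h.isOpenMap.isQuotientMap h.hol.cont h.onto

theorem hol_desc {g : Q → W} (hg : HolM m k fun a => g (π a)) : HolM d k g := fun q =>
  let ⟨a, e⟩ := h.onto q
  e ▸ (h.sbm a).desc (h.hol.at a) (hg.at a)

theorem alg_desc {g : Q → W} (hg : Alg cE cW fun a => g (π a)) : Alg cQ cW g :=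
  h.alg.desc h.onto (h.hol_desc hg.hol) hg

theorem reg_desc {t : Q → ℂ} (ht : Reg cE fun a => t (π a)) : Reg cQ t :=
  (alg_iff_reg (t := fun x (_ : Fin 1) => t x)).1 (h.alg_desc (alg_iff_reg.2 fun _ => ht)) 0

theorem zc_desc {Z : Set Q} (hZ : Zc cE (π ⁻¹' Z)) : Zc cQ Z :=
  image_preimage_eq Z h.onto ▸ hZ.img h.alg
    ((image_preimage_eq Z h.onto).symm ▸ h.isQuotientMap.isClosed_preimage.1 hZ.closed)

/-- an invariant algebraic map factors through the quotient -/
theorem fac {g : E → W} (hg : Alg cE cW g) (e : ∀ a b, π a = π b → g a = g b) :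
    ∃ G : Q → W, Alg cQ cW G ∧ ∀ a, G (π a) = g a :=
  have h1 : ∀ a, g (surjInv h.onto (π a)) = g a := fun a => e _ _ (surjInv_eq _ _)
  ⟨fun q => g (surjInv h.onto q), h.alg_desc ((funext h1).symm ▸ hg), h1⟩

/-- an equivariant algebraic map induces an algebraic map of the quotients -/
theorem map {m' : ℕ} {E' : Type} [TopologicalSpace E'] [ChartedSpace (Cm m') E']
    [IsManifold 𝓘(ℂ, Cm m') ω E'] {cE' : Cp m' E'} {π' : E' → W} (h' : QV m' k cE' cW π')
    {g : E → E'} (hg : Alg cE cE' g) {G : Q → W} (e : ∀ a, G (π a) = π' (g a)) : Alg cQ cW G :=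
  h.alg_desc ((funext e).symm ▸ h'.alg.comp hg)

end QV

end Vale.Agent.P275BW
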