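import Vale.Agent.P275GQ.Bx

/-!
P275 (helper22): the map which forgets the flag is locally trivial.
-/

set_option linter.all false

open scoped Manifold ContDiff Topology
open Set Filter Topology Function Matrix
open Vale.Agent.P272.K (Cm Chart At)
open Vale.Agent.P281Z Vale.Agent.P275RG Vale.Agent.P275XB Vale.Agent.P275Z
open Vale.Agent.P281Z.Hm (Mx)
open Vale.Agent.P275ST (Rep XB dimR)
open Vale.Agent.P275MO (Ty)
open Vale.Agent.P275MB (inv_mem_alg)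

noncomputable section

namespace Vale.Agent.P275BW

variable {g n : ℕ} {d : ℤ}

/-- invertible matrices -/
abbrev Iv (n : ℕ) : Type := {σ : Mx (Fin n) // σ.det ≠ 0}

/-- the product -/
def Iv.mul (σ β : Iv n) : Iv n := ⟨σ.1 * β.1, (det_mul _ _).trans_ne (mul_ne_zero σ.2 β.2)⟩

/-- the cosets of the units of `H` -/
def GH (H : Subalgebra ℂ (Mx (Fin n))) : Type := Quot fun σ σ' : Iv n => ∃ β ∈ H, σ'.1 = σ.1 * β

variable {H : Subalgebra ℂ (Mx (Fin n))}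

instance : TopologicalSpace (GH H) := inferInstanceAs (TopologicalSpace (Quot _))

variable (H) in
/-- the coset of a matrix -/
def GH.mk (σ : Iv n) : GH H := Quot.mk _ σ

theorem gh_det {σ σ' : Iv n} {β : Mx (Fin n)} (e : σ'.1 = σ.1 * β) : β.det ≠ 0 :=
  right_ne_zero_of_mul (det_mul σ.1 β ▸ e ▸ σ'.2)

theorem gh_eq {σ σ' : Iv n} : GH.mk H σ = GH.mk H σ' ↔ ∃ β ∈ H, σ'.1 = σ.1 * β :=
  Quot.eq.trans (Equivalence.eqvGen_iff ⟨fun _ => ⟨1, H.one_mem, (Matrix.mul_one _).symm⟩,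
    fun ⟨β, a, b⟩ => ⟨β⁻¹, inv_mem_alg a (gh_det b), by
      rw [b, mul_nonsing_inv_cancel_right _ _ (gh_det b).isUnit]⟩,
    fun ⟨β, a, b⟩ ⟨β', a', b'⟩ => ⟨β * β', H.mul_mem a a', by rw [b', b, Matrix.mul_assoc]⟩⟩)

theorem gh_quo : IsOpenQuotientMap (GH.mk H) := by
  refine ⟨Quot.mk_surjective, continuous_quot_mk, fun U hU => ?_⟩
  have h0 : IsQuotientMap (GH.mk H) := isQuotientMap_quot_mk
  rw [← h0.isOpen_preimage, show GH.mk H ⁻¹' (GH.mk H '' U) = ⋃ β : {β : Iv n // β.1 ∈ H}, (·.mul β.1) ⁻¹' U from ?_]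
  · exact isOpen_iUnion fun β => hU.preimage
      ((continuous_subtype_val.matrix_mul continuous_const).subtype_mk _)
  ext σ
  refine ⟨fun ⟨σ', a, b⟩ => ?_, fun h => ?_⟩
  · obtain ⟨β, c, e⟩ := gh_eq.1 b.symm
    exact mem_iUnion.2 ⟨⟨⟨β, gh_det e⟩, c⟩, show σ.mul ⟨β, gh_det e⟩ ∈ U from
      mem_of_eq_of_mem (Subtype.ext e : σ' = σ.mul ⟨β, gh_det e⟩).symm a⟩
  · obtain ⟨β, a⟩ := mem_iUnion.1 h
    exact ⟨_, a, (gh_eq.2 ⟨β.1, β.2, rfl⟩).symm⟩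

theorem gh_cpt (hH : bor n ≤ H) : CompactSpace (GH H) := by
  obtain ⟨C, h3, h4, h5⟩ := P275HN.coc hH
  have h6 : IsCompact ((↑) ⁻¹' C : Set (Iv n)) :=
    IsEmbedding.subtypeVal.isCompact_preimage_iff (fun σ k => ⟨⟨σ, h4 σ k⟩, rfl⟩) |>.2 h3
  refine ⟨(h6.image gh_quo.continuous).of_isClosed_subset isClosed_univ fun y _ => ?_⟩
  obtain ⟨σ, rfl⟩ := gh_quo.surjective y
  obtain ⟨u, a, β, b, e⟩ := h5 σ σ.2
  exact ⟨⟨u, h4 u a⟩, a, gh_eq.2 ⟨β, b, e⟩⟩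

theorem cj_mul' {σ β : Mx (Fin n)} {ρ ρ' ρ'' : Tup g n} (h : Cj σ ρ ρ') (k : Cj β ρ' ρ'') :
    Cj (σ * β) ρ ρ'' := fun s => by
  rw [k s, h s, Matrix.mul_inv_rev]
  simp only [Matrix.mul_assoc]

theorem cj_inv' {σ : Mx (Fin n)} {ρ ρ' : Tup g n} (h0 : σ.det ≠ 0) (h : Cj σ ρ ρ') : Cj σ⁻¹ ρ' ρ :=
  fun s => by
  rw [h s, nonsing_inv_nonsing_inv _ h0.isUnit, Matrix.mul_assoc, Matrix.mul_assoc,
    Matrix.mul_assoc, mul_nonsing_inv _ h0.isUnit, mul_nonsing_inv_cancel_left _ _ h0.isUnit,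
    Matrix.mul_one]

theorem cj_uniq {σ : Mx (Fin n)} {ρ ρ' ρ'' : Rep g n d} (h : Cj σ ρ.1 ρ'.1) (k : Cj σ ρ.1 ρ''.1) :
    ρ' = ρ'' := ep_inj (funext fun s => (h s).trans (k s).symm)

variable [h : Ok g n d] {τ : Ty n}

/-- Schur -/
theorem cj_schur {σ σ' : Mx (Fin n)} {ρ ρ' : Rep g n d} (h0 : σ.det ≠ 0) (h1 : σ'.det ≠ 0)
    (k : Cj σ ρ.1 ρ'.1) (k' : Cj σ' ρ.1 ρ'.1) : ∃ c : ℂ, σ' = c • σ := by
  obtain ⟨c, e⟩ := (irr_ep ρ).schur (g := σ' * σ⁻¹) fun s => by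
    have := cj_mul' k' (cj_inv' h0 k) s
    show (ρ.1 s).1 * _ = _ * (ρ.1 s).1
    conv_rhs => rw [this, Matrix.mul_assoc _⁻¹, mul_nonsing_inv_cancel_left _ _ (by
      rw [det_mul]; exact h1.isUnit.mul (isUnit_nonsing_inv_det _ h0.isUnit))]
  exact ⟨c, by rw [← nonsing_inv_mul_cancel_right σ σ' h0.isUnit, e, smul_mul, Matrix.one_mul]⟩

theorem ptR_iff {ρ ρ' : Rep g n d} : (frR τ ρ).pt τ = (frR τ ρ').pt τ ↔
    ∃ σ ∈ τ.H, σ.det ≠ 0 ∧ Cj σ ρ.1 ρ'.1 := by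
  refine ⟨fun e => ?_, fun ⟨_, a, b, c⟩ => ptR_eq a b c⟩
  have : ∀ p p' : BFr g d τ.q, Relation.EqvGen (BFr.Rl τ) p p' →
      ∃ σ ∈ τ.H, σ.det ≠ 0 ∧ Cj σ p.1.2 p'.1.2 := fun p p' e => by
    induction e with
    | rel _ _ e => exact e.imp fun _ k => ⟨k.1, k.2.1, k.2.2.2⟩
    | refl _ => exact ⟨1, τ.H.one_mem, by simp, fun _ => by simp⟩
    | symm _ _ _ e =>
      obtain ⟨σ, a, b, c⟩ := e
      exact ⟨σ⁻¹, inv_mem_alg a b, (isUnit_nonsing_inv_det _ b.isUnit).ne_zero, cj_inv' b c⟩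
    | trans _ _ _ _ _ e e' =>
      obtain ⟨σ, a, b, c⟩ := e
      obtain ⟨σ', a', b', c'⟩ := e'
      exact ⟨σ * σ', τ.H.mul_mem a a', (det_mul _ _).trans_ne (mul_ne_zero b b'), cj_mul' c c'⟩
  exact this _ _ (Quot.eq.1 e)

theorem ptX_cjR (σ : Iv n) (ρ : Rep g n d) : ptX (cjR σ ρ) = ptX ρ :=
  ((ptX_iff (ρ := ρ) (ρ' := cjR σ ρ)).2 ⟨σ.1, σ.2, cjR_cj σ ρ⟩).symm

theorem ptR_cjR {σ σ' : Iv n} {ρ : Rep g n d} :
    (frR τ (cjR σ ρ)).pt τ = (frR τ (cjR σ' ρ)).pt τ ↔ GH.mk τ.H σ = GH.mk τ.H σ' := by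
  rw [ptR_iff, gh_eq]
  refine ⟨fun ⟨β, a, b, c⟩ => ?_, fun ⟨β, a, e⟩ => ⟨β, a, gh_det e, ?_⟩⟩
  · obtain ⟨t, e⟩ := cj_schur ((det_mul _ _).trans_ne (mul_ne_zero σ.2 b)) σ'.2
      (cj_mul' (cjR_cj σ ρ) c) (cjR_cj σ' ρ)
    exact ⟨t • β, τ.H.smul_mem a t, e.trans (Matrix.mul_smul _ _ _).symm⟩
  · have := cj_mul' (cj_inv' σ.2 (cjR_cj σ ρ)) (cjR_cj σ' ρ)
    rwa [e, nonsing_inv_mul_cancel_left _ _ σ.2.isUnit] at this

/-- local holomorphic sections of the space of representations -/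
theorem ex_secX (ρ : Rep g n d) : ∃ (O : Set (vX g n d).X) (s : (vX g n d).X → Rep g n d),
    IsOpen O ∧ ptX ρ ∈ O ∧ s (ptX ρ) = ρ ∧
      ∀ y ∈ O, HolA (2 * dimR g n) (dimZ g n) s y ∧ ptX (s y) = y := by
  obtain ⟨s, h1, h2, h3⟩ := (qwX.sbm ρ).sec (qwX.hol.at ρ)
  obtain ⟨O, h4, h5, h6⟩ := eventually_nhds_iff.1 (h2.near.and h3)
  exact ⟨O, s, h5, h6, h1, h4⟩

variable (hq : ∀ R ∈ τ.q, R = 0) {G : Bet g d τ → Bet g d (tauX n)}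
  (hG : ∀ ρ : Rep g n d, G ((frR τ ρ).pt τ) = ptX ρ)
include hq hG

omit hq hG in
variable (τ) in
/-- the point given by a representation and a coset -/
def th (ρ : Rep g n d) : GH τ.H → Bet g d τ :=
  Quot.lift (fun σ => (frR τ (cjR σ ρ)).pt τ) fun _ _ k => ptR_cjR.2 (Quot.sound k)

omit hq hG in
theorem th_mk (ρ : Rep g n d) (σ : Iv n) : th τ ρ (GH.mk _ σ) = (frR τ (cjR σ ρ)).pt τ := rfl

omit hq hG in
theorem cont_th : Continuous fun z : Rep g n d × GH τ.H => th τ z.1 z.2 := by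
  have h1 : Continuous fun p : BFr g d τ.q => p.pt τ := continuous_quot_mk
  have h2 := (h1.comp cont_frR).comp (cont_cjR.comp continuous_swap)
  exact (IsOpenQuotientMap.id.prodMap (gh_quo (H := τ.H))).isQuotientMap.continuous_iff.2
    (h2.congr fun z => (th_mk z.1 z.2).symm)

omit hq hG in
theorem th_inj (ρ : Rep g n d) : Injective (th τ ρ) := fun u u' k => by
  obtain ⟨σ, rfl⟩ := gh_quo.surjective u
  obtain ⟨σ', rfl⟩ := gh_quo.surjective u'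
  exact ptR_cjR.1 k

omit hq in
theorem fgt_th (ρ : Rep g n d) (u : GH τ.H) : G (th τ ρ u) = ptX ρ := by
  obtain ⟨σ, rfl⟩ := gh_quo.surjective u
  rw [th_mk, hG, ptX_cjR]

theorem ex_th {ρ : Rep g n d} {x : Bet g d τ} (e : ptX ρ = G x) : ∃ u, th τ ρ u = x := by
  obtain ⟨ρ', rfl⟩ := ptR_onto hq x
  obtain ⟨σ, a, b⟩ := ptX_iff.1 (e.trans (hG ρ'))
  exact ⟨GH.mk _ ⟨σ, a⟩, by rw [th_mk, cj_uniq (cjR_cj ⟨σ, a⟩ _) b]⟩

/-- **Local triviality** -/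
theorem fgt_triv [T2Space (Bet g d τ)] (hH : bor n ≤ τ.H) {O : Set (Bet g d (tauX n))}
    {s : O → Rep g n d} (hs : Continuous s) (e : ∀ y, ptX (s y) = y) :
    ∃ Θ : O × GH τ.H ≃ₜ G ⁻¹' O, ∀ z, (Θ z).1 = th τ (s z.1) z.2 := by
  haveI := gh_cpt hH
  have h1 : ∀ z : O × GH τ.H, G (th τ (s z.1) z.2) = z.1 := fun z => (fgt_th hG _ _).trans (e _)
  obtain ⟨Θ, h0⟩ : ∃ Θ : O × GH τ.H → G ⁻¹' O, ∀ z, (Θ z).1 = th τ (s z.1) z.2 :=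
    ⟨fun z => ⟨th τ (s z.1) z.2, show G _ ∈ O from (h1 z).symm ▸ z.1.2⟩, fun _ => rfl⟩
  have h2 : Continuous Θ := IsInducing.subtypeVal.continuous_iff.2
    ((cont_th.comp (hs.prodMap continuous_id)).congr fun z => (h0 z).symm)
  have h5 : (fun z : G ⁻¹' O => (⟨G z, z.2⟩ : O)) ∘ Θ = Prod.fst :=
    funext fun z => Subtype.ext ((congrArg G (h0 z)).trans (h1 z))
  have h3 : IsProperMap Θ := isProperMap_of_comp_of_t2 h2
    (((fgt_cont hq hG).comp continuous_subtype_val).subtype_mk _)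
    (h5.symm ▸ isProperMap_fst_of_compactSpace)
  have h4 : Bijective Θ := by
    refine ⟨fun ⟨y, u⟩ ⟨y', u'⟩ k => ?_, fun x => ?_⟩
    · obtain rfl : y = y' := by
        have a := congrFun h5 (y, u)
        rw [Function.comp_apply, k] at a
        exact a.symm.trans (congrFun h5 (y', u'))
      exact Prod.ext rfl (th_inj _ ((h0 _).symm.trans ((congrArg _ k).trans (h0 _))))
    · obtain ⟨u, a⟩ := ex_th hq hG (e ⟨_, x.2⟩)
      exact ⟨(⟨_, x.2⟩, u), Subtype.ext ((h0 _).trans a)⟩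
  exact ⟨(Equiv.ofBijective Θ h4).toHomeomorphOfContinuousClosed h2 h3.isClosedMap, h0⟩

end Vale.Agent.P275BW
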