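import Vale.Agent.P275GQ.Cmp
import Vale.Agent.P275CF.Alg
import Vale.Agent.P275DS.Psi
import Vale.Agent.P275UC.Res

/-!
# P275: the integral over the curve of the second form of a family of flat bundles
-/

open scoped Manifold ContDiff Topology Real
open Set Filter Matrix
open Vale.Agent.P272.K Vale.Agent.P272.K.Prod Vale.Agent.P281Z.Hg Vale.Agent.P275KU
  Vale.Agent.P275MC Vale.Agent.P275Z Vale.Agent.P275OM Vale.Agent.P275OM.Fr P275CW
open P275CC (Th VB Nc)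
open Vale.Agent.P275RH (cwd)

set_option backward.isDefEq.respectTransparency false
set_option linter.unusedSectionVars false

noncomputable section

namespace Vale.Agent.P275GQ

attribute [local instance] prodCS isManifold_prod

section alg

variable {Ω : Type} [Ring Ω] [Algebra ℂ Ω] {D : DG Ω} {n Γ : Type} [Fintype n] [DecidableEq n]
  [Group Γ] {u : Γ →* Matrix n n Ω}

theorem lg_one : D.lg u 1 = 0 := by rw [DG.lg, inv_one, map_one, DG.dm_one, Matrix.mul_zero]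

theorem lg_law (hu : ∀ γ, u γ ∈ D.M 0 n n) {a b c : Γ} (h : u a * u b = u c) :
    D.dm (u a) + D.lg u c * u a = u a * D.lg u b := by
  have e : u c⁻¹ = u b⁻¹ * u a⁻¹ := by
    rw [← DG.u_can' (u := u) c (u b⁻¹ * u a⁻¹), ← h, Matrix.mul_assoc, DG.u_can, ← map_mul,
      mul_inv_cancel, map_one, Matrix.mul_one]
  have e2 : u a * D.dm (u a⁻¹) * u a = -D.dm (u a) := by
    rw [← neg_neg (u a * _), ← DG.dm_inv hu, Matrix.neg_mul, Matrix.mul_assoc, ← map_mul,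
      inv_mul_cancel, map_one, Matrix.mul_one]
  have e3 : u a⁻¹ * u a = 1 := by rw [← map_mul, inv_mul_cancel, map_one]
  rw [DG.lg, DG.lg, e, ← h, DG.dm_ev (hu _) Even.zero, Matrix.mul_add, Matrix.add_mul,
    Matrix.mul_assoc (u a) (u b) (u b⁻¹ * _), DG.u_can, e2]
  simp only [Matrix.mul_assoc, e3, Matrix.mul_one]
  abel

end alg

variable {d g : ℕ} {M C J : Type} [TopologicalSpace M] [ChartedSpace (Cm d) M]
  [IsManifold 𝓘(ℂ, Cm d) ω M] [T2Space M] [SecondCountableTopology M] [TopologicalSpace C]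
  [ChartedSpace (Cm 1) C] [IsManifold 𝓘(ℂ, Cm 1) ω C] [T2Space C] [SecondCountableTopology C]
  [CompactSpace C] [Fintype J] [DecidableEq J]

theorem cut_d {x : M} {a : ∀ y : M, Gx d y} {ρ : M → ℂ} (hρ : Sa d x ρ)
    (h : x ∈ tsupport ρ → Lr a x) : Lr (fun y => (dgG d y).d (gm d y ρ) * a y) x := by
  by_cases hx : x ∈ tsupport ρ
  · exact (Lr.gm hρ).dd.mul (h hx)
  · exact Lr.zero.congr (((isClosed_tsupport ρ).isOpen_compl.eventually_mem hx).mono
      fun y hy => by rw [gm_off hy, map_zero, zero_mul])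

theorem fi_deg {c : ℂ} {Φ : SF (d + 1) (M × C)} {w : SF d M} (hΦ : Φ ∈ Dg _ _ 4)
    (hw : w ∈ Dg _ _ 2) (h : ∀ z ∈ Am d ((d + d : ℕ) - 2) univ,
      itc (d + 1) (M × C) (wd Φ (pb smo_fst z)) = c * itc d M (wd w z)) : FI c Φ w univ :=
  fun z hz => by
    rw [← itc_wd_pj hw hz, ← h _ (pj_Am _ hz), pb_pj, ← itc_wd_pj hΦ (fst_Ac hz)]
    exact congrArg (fun k => itc _ _ (wd Φ (pj _ _ k _))) (by omega)

/-- germs of pulled back forms -/
def ph (y : M × C) : Fr d M →ₐ[ℂ] Gx (d + 1) y := (gq y).comp (pbH smo_fst)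

theorem hom_ph (y : M × C) : (dgF d M).Hom (dgG (d + 1) y) (ph y) :=
  ⟨fun h => (hom_gq y).mem ((hom_pbH _).mem h),
    fun a => (congrArg (gq y) ((hom_pbH _).d a)).trans ((hom_gq y).d _)⟩

theorem ts_snd {f : C → ℂ} {y : M × C} (h : y ∈ tsupport fun y : M × C => f y.2) :
    y.2 ∈ tsupport f :=
  closure_minimal (t := Prod.snd ⁻¹' tsupport f) (fun _ hy => subset_tsupport _ hy)
    ((isClosed_tsupport f).preimage continuous_snd) h

theorem Psi_one (R : Gm g →* (Matrix J J (Sm d M))ˣ) : Psi R 1 = 0 := by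
  rw [Psi, map_one]
  rfl

theorem Psi_inv (R : Gm g →* (Matrix J J (Sm d M))ˣ) (γ : Gm g) : Psi R γ⁻¹ = -Psi R γ := by
  rw [Psi, map_inv]
  rfl

variable (F : Wc g C) (R : Gm g →* (Matrix J J (Sm d M))ˣ) (ρ : Option (Fin F.M) → C → ℂ)

/-- the connection -/
def cA (i : Option (Fin F.M)) (y : M × C) : Matrix J J (Gx (d + 1) y) :=
  ∑ k, gm (d + 1) y (fun y => ρ k y.2) • ((dgF d M).lg (uF R) (F.w i k y.2)).map (ph y)

/-- the primitive -/
def cB (y : M × C) : Gx (d + 1) y := ∑ k, ∑ l, gm (d + 1) y (fun y => ρ k y.2) *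
  (dgG (d + 1) y).d (gm (d + 1) y fun y => ρ l y.2) * ph y (Psi R (F.w k l y.2))

variable {F R ρ} {r : M → Gm g →* Matrix J J ℂ} {hr : ∀ w, Continuous fun x => r x w}
  {h1 : ∀ x, r x (cwd g) = 1} (hR : ∀ x γ, r x γ = (R γ).1.map (Sm.ev x))
  (s1 : ∀ k, SmC 1 (ρ k)) (s2 : ∀ k, tsupport (ρ k) ⊆ F.V k) (s3 : ∀ x, ∑ k, ρ k x = 1)

theorem ev_w {y : M × C} {k l} (hk : y.2 ∈ F.V k) (hl : y.2 ∈ F.V l) :
    ∀ᶠ t in 𝓝 y, F.w k l t.2 = F.w k l y.2 :=
  (continuous_snd.tendsto y).eventually (Wc.lcw hk hl)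

include s1 in
theorem sa_ρ (k) (y : M × C) : Sa (d + 1) y fun y => ρ k y.2 := (Sa.of (s1 k) y.2).pull smo_snd

include s1 s3 in
theorem sum_ρ (y : M × C) : ∑ k, gm (d + 1) y (fun y => ρ k y.2) = 1 := by
  rw [← gm_sum _ fun k _ => sa_ρ s1 k y]
  simp only [s3, gm_one]

include s1 s2 in
theorem lr_cB (y : M × C) : Lr (cB F R ρ) y := by
  unfold cB
  simp only [mul_assoc]
  exact Lr.sum _ fun k _ => Lr.sum _ fun l _ => Lr.cut (sa_ρ s1 k y) fun hk =>
    cut_d (sa_ρ s1 l y) fun hl => (Lr.gq (pbH smo_fst (Psi R (F.w k l y.2)))).congr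
      ((ev_w (s2 k (ts_snd hk)) (s2 l (ts_snd hl))).mono fun t e => by rw [e]; rfl)

include hR h1 in
theorem R_cwd : R (cwd g) = 1 := Units.ext (Matrix.ext fun a b => Subtype.ext (funext fun x =>
  congrFun₂ (((hR x _).symm.trans (h1 x)).trans
    (Matrix.map_one _ (map_zero (Sm.ev x)) (map_one (Sm.ev x))).symm) a b))

variable [Nc (M × C)]

include hR s1 s2 s3 in
theorem lcon : LCon (F.vb r hr h1) (cA F R ρ) := by
  have k1 : ∀ i j (y : M × C), y.2 ∈ F.V i → y.2 ∈ F.V j → ∀ a b,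
      (pbS (smo_fst (m := 1) (Y := C)) ((R (F.w i j y.2)).1 a b)).1 =ᶠ[𝓝 y]
        fun t => r t.1 (F.w i j t.2) a b := fun i j y hi hj a b =>
    (ev_w hi hj).mono fun t e => by
      beta_reduce
      rw [e, hR]
      rfl
  refine ⟨fun i j y hi hj a b => ⟨_, k1 i j y hi hj a b⟩, fun i y _ => sum_mem fun k _ p q =>
    (dgG _ y).mul (gm_mem _) ((hom_ph y).M (DG.lg_mem (uF_mem R) _) p q), fun i y hi =>
    LrM.sum _ fun k _ => LrM.cut (sa_ρ s1 k y) fun hk => (LrM.gq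
      (((dgF d M).lg (uF R) (F.w i k y.2)).map (pbH smo_fst))).congr
      ((ev_w hi (s2 k (ts_snd hk))).mono fun t e => by rw [e]; rfl), fun i j y hi hj => ?_⟩
  have k2 : gM (d + 1) y ((F.vb r hr h1).g i j) = (uF R (F.w i j y.2)).map (ph y) :=
    Matrix.ext fun a b => (gm_eq _ (k1 i j y hi hj a b)).trans
      (congrArg (gq y) (pbH_fn smo_fst _).symm)
  have k3 := law_sum (D := dgG (d + 1) y) (g := gM (d + 1) y ((F.vb r hr h1).g i j))
    (c := fun _ => 0) (A := fun k => ((dgF d M).lg (uF R) (F.w i k y.2)).map (ph y))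
    (B := fun k => ((dgF d M).lg (uF R) (F.w j k y.2)).map (ph y))
    (gM_mem _) (fun _ => gm_mem _) (sum_ρ s1 s3 y) fun k => by
      by_cases hk : y ∈ tsupport fun y : M × C => ρ k y.2
      · refine .inr ?_
        rw [k2, ← (hom_ph y).dm, ← DG.mp_mul, ← DG.mp_mul, ← DG.mp_add, zero_smul, add_zero,
          lg_law (uF_mem R) (Wc.w_mul (r := uF R)
            ((congrArg (dvF d M).u (R_cwd (h1 := h1) hR)).trans (map_one _)) hi hj (s2 k (ts_snd hk)))]
      · exact .inl (gm_off hk)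
  simpa only [cA, mul_zero, Finset.sum_const_zero, zero_smul, add_zero] using k3

theorem big' (j : ℤ) (h : (d + d : ℕ) < j) (b : Fr d M) (hb : b ∈ (dgF d M).G j) : b = 0 :=
  (Dg_big h).le hb

include s1 s2 s3 in
theorem top_out {z : Fr d M} (hz : z ∈ (dgF d M).G ((d + d : ℕ) - 2)) {y : M × C} {i}
    (hi : y.2 ∈ F.V i) (hD : y.2 ∉ F.D) :
    trace ((dgG _ y).cur (cA F R ρ i y) * (dgG _ y).cur (cA F R ρ i y)) * ph y z =
      (dgG _ y).d (cB F R ρ y * ph y z) := by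
  rw [cB, P275CF.d_beta (hom_ph y) big' hz (fun _ => gm_mem _) fun _ _ => Psi_mem R _]
  refine P275CF.tr_top (hom_ph y) big' hz (fun _ => gm_mem _) (sum_ρ s1 s3 y)
    (fun _ => DG.lg_mem (uF_mem R) _) (P := fun k => Psi R (F.w i k y.2)) (fun k l => ?_) rfl
  by_cases hk : y ∈ tsupport fun y : M × C => ρ k y.2
  swap
  · exact .inl (gm_off hk)
  by_cases hl : y ∈ tsupport fun y : M × C => ρ l y.2
  swap
  · exact .inr (.inl (gm_off hl))
  have a := s2 k (ts_snd hk)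
  have b := s2 l (ts_snd hl)
  obtain _ | i := i
  · exact absurd hi hD
  obtain _ | k := k
  · exact absurd a hD
  obtain _ | l := l
  · exact absurd b hD
  refine .inr (.inr ?_)
  rw [ps_Psi, Psi_inv, show (F.w (some i) (some k) y.2)⁻¹ * F.w (some i) (some l) y.2 =
    F.w (some k) (some l) y.2 from inv_mul_eq_iff_eq_mul.2 (F.mul i k l _ hi a b).symm]
  abel

include hR h1 s1 s2 in
theorem top_in {z : Fr d M} (hz : z ∈ (dgF d M).G ((d + d : ℕ) - 2)) {y : M × C}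
    (hD : y.2 ∈ F.D) {ν : Fr 1 C} (hν : gq y.2 ν = ∑ a, ∑ b, (F.θ a y.2 - F.θ b y.2) •
      ((dgG 1 y.2).d (gm 1 y.2 (ρ (some a))) * (dgG 1 y.2).d (gm 1 y.2 (ρ (some b))))) :
    (dgG _ y).d (cB F R ρ y * ph y z) = (F.s / (2 * π * Complex.I) : ℂ) •
      (gq y (pbH smo_snd ν) * ph y (Psi R (cwd g) * z)) := by
  have e : ∀ k, F.w k none y.2 = 1 := fun k => by cases k <;> rfl
  have e' : ∀ k, F.w none k y.2 = 1 := fun k => rfl
  rw [cB, P275CF.d_beta (hom_ph y) big' hz (fun _ => gm_mem _) fun _ _ => Psi_mem R _,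
    ← pbg_gq, hν, map_mul, ← mul_assoc, ← smul_mul_assoc]
  refine congrArg (· * ph y z) ?_
  simp only [Fintype.sum_option, e, e', Psi_one, map_zero, mul_zero, Finset.sum_const_zero,
    zero_add, map_sum, map_smul, map_mul, Finset.sum_mul, Finset.smul_sum, (hom_pbg smo_snd y).d,
    pbg_gm smo_snd (Sa.of (s1 _) _)]
  refine Finset.sum_congr rfl fun a _ => Finset.sum_congr rfl fun b _ => ?_
  by_cases ha : y ∈ tsupport fun y : M × C => ρ (some a) y.2
  swap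
  · simp only [gm_off ha, map_zero, zero_mul, smul_zero]
  by_cases hb : y ∈ tsupport fun y : M × C => ρ (some b) y.2
  swap
  · simp only [gm_off hb, map_zero, zero_mul, mul_zero, smul_zero]
  obtain ⟨m, e1, e2⟩ := (F.log a _ (s2 _ (ts_snd ha)) hD).2.2 b (s2 _ (ts_snd hb))
  rw [show F.w (some a) (some b) y.2 = _ from e2, Psi_zpow R (R_cwd (h1 := h1) hR), e1, map_zsmul,
    mul_smul_comm, smul_mul_assoc, smul_smul, ← Int.cast_smul_eq_zsmul ℂ, Int.cast_mul,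
    mul_comm (m : ℂ), ← mul_assoc, div_mul_cancel₀ _ Complex.two_pi_I_ne_zero]

include hR in
/-- **CFC** -/
theorem cfc (h : MV0 ∧ LHP) {A : P275GC.At C} (hA : P275CW.IsA A) {k : Fin A.N}
    (a1 : F.D ⊆ (A.e k).source) (a2 : ∀ c, F.z c = A.e k c - A.e k F.p)
    (h0 : dd d M (sf (Psi R (cwd g))) = 0) : ∃ c : ℂ, c ≠ 0 ∧
      gys (act_fst (n := d) (m := 1)) ((thOf h).p2 (F.vb r hr h1)).1 =
        c • clT ⟨sf (Psi R (cwd g)), h0⟩ := by
  obtain ⟨ψ0, ψ, ν, b1, b2, b3, b4, b5, b6, b7, b8, b9⟩ := P275UC.puc_abs hA F.opD F.mem a1 F.op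
    F.cov' fun a x hx hD => ⟨a2 x ▸ (F.log a x hx hD).1, (F.log a x hx hD).2.1⟩
  let ρ : Option (Fin F.M) → C → ℂ := fun k => k.elim ψ0 ψ
  have s1 : ∀ k, SmC 1 (ρ k) := fun k => by cases k; exacts [b1, b2 _]
  have s2 : ∀ k, tsupport (ρ k) ⊆ F.V k := fun k => by cases k; exacts [b3, b4 _]
  have s3 : ∀ x, ∑ k, ρ k x = 1 := fun x => (Fintype.sum_option _).trans (b5 x)
  have L := lcon (hr := hr) (h1 := h1) hR s1 s2 s3
  obtain ⟨F₁, F₂, e₁, e₂⟩ := L.ex
  obtain ⟨β, hβ⟩ := Lr.glue (lr_cB (R := R) s1 s2)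
  have m4 : F₂ ∈ (dgF _ _).G 4 := mem_of_gq fun x => by
    obtain ⟨i, hi⟩ := (F.vb r hr h1).cov x
    have := (L.con hi).c2_mem
    rwa [DG.c2, Matrix.one_mul, ← e₂ i x hi] at this
  have d2 : (dgF _ _).d F₂ = 0 := gq_ext fun x => by
    obtain ⟨i, hi⟩ := (F.vb r hr h1).cov x
    have := (L.con hi).d_c2
    rwa [DG.c2, Matrix.one_mul, ← e₂ i x hi, ← (hom_gq x).d, ← map_zero (gq x)] at this
  refine ⟨-(F.s / (2 * π * Complex.I) * (sgc d 1 * itc 1 C (sf ν))), neg_ne_zero.2 (mul_ne_zero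
    (div_ne_zero (Int.cast_ne_zero.2 F.hs) Complex.two_pi_I_ne_zero) (mul_ne_zero sgc_ne b7)), ?_⟩
  rw [(cwt h L e₁ e₂).2, cF_eq d2]
  refine FI.gy (fi_deg (Φ := sf F₂) (w := sf (Psi R (cwd g))) m4 (Psi_mem R _) fun z hz => ?_) d2 h0
  have e : F₂ * pbH smo_fst (Fr.of z) = dF (β * pbH smo_fst (Fr.of z)) -
      (F.s / (2 * π * Complex.I) : ℂ) •
        (pbH smo_snd ν * pbH smo_fst (Psi R (cwd g) * Fr.of z)) := gq_ext fun y => by
    rw [map_sub, ← d_gq, map_smul, map_mul (gq y), map_mul (gq y), map_mul (gq y), hβ]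
    by_cases hD : y.2 ∈ F.D
    · have k1 : cA F R ρ none y = 0 := Finset.sum_eq_zero fun k _ => by
        rw [show F.w none k y.2 = 1 from rfl, lg_one, Matrix.map_zero _ (map_zero _), smul_zero]
      rw [e₂ none y hD, k1, DG.cur, map_zero, Matrix.mul_zero, add_zero, Matrix.mul_zero,
        trace_zero, zero_mul]
      exact (sub_eq_zero.2 (top_in (h1 := h1) hR s1 s2 hz.2 hD (b9 _ hD _ fun _ _ _ _ => rfl))).symm
    · obtain ⟨i, hi⟩ := F.covV y.2
      rw [e₂ i y hi, ← pbg_gq smo_snd y ν, b8 _ fun a => hD (b3 a), map_zero, zero_mul, smul_zero,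
        sub_zero]
      exact top_out s1 s2 s3 hz.2 hi hD
  have e2 := congrArg (fun u => itc (d + 1) (M × C) (sf u)) e
  simp only [map_sub, map_smul, sf_mul, sf_dF, sf_pbH, sf_of] at e2
  have m2 := wd_Am (u := sf (Psi R (cwd g))) (Psi_mem R (cwd g)) hz
  rw [e2, itc_dd (wd_Ac _ (fst_Ac hz.1)), wd_comm (pb_Dg _ b6) (pb_Dg _ m2.2),
    Int.negOnePow_even _ (even_two.mul_right _), Units.val_one, Int.cast_one, one_smul, ← cr_apply,
    itc_cr m2.1 (by rw [Ac_univ]; trivial), smul_eq_mul]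
  ring

omit [Nc (M × C)] in
theorem lift_ev {X : Fin g × Bool → (Matrix J J (Sm d M))ˣ}
    (h : ∀ x s, r x (FreeGroup.of s) = (X s).1.map (Sm.ev x)) (x : M) (γ : Gm g) :
    r x γ = (FreeGroup.lift X γ).1.map (Sm.ev x) := by
  let φ : Matrix J J (Sm d M) →+* Matrix J J ℂ := (Sm.ev x).mapMatrix
  let ψ : (Matrix J J (Sm d M))ˣ →* (Matrix J J ℂ)ˣ := Units.map φ.toMonoidHom
  have e : (r x).toHomUnits = ψ.comp (FreeGroup.lift X) := FreeGroup.ext_hom _ _ fun s =>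
    Units.ext ((h x s).trans (by rw [MonoidHom.comp_apply, FreeGroup.lift_apply_of]; rfl))
  exact congrArg Units.val (DFunLike.congr_fun e γ)

/-- **CFO** -/
theorem cfo (h : MV0 ∧ LHP) (o : OMB) : CFO h := by
  intro g n d _ C _ _ _ _ _ _ A F k hA a1 a2 w h0 hw
  obtain ⟨X, a4, a5⟩ := o g n d w hw
  have a6 : Psi (FreeGroup.lift X) (cwd g) = (n : ℂ) • Fr.of w := by
    rw [Psi_cwd, ← a5]
    simp only [FreeGroup.lift_apply_of, Omg]
  have a7 : dd _ _ (sf (Psi (FreeGroup.lift X) (cwd g))) = 0 := by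
    rw [a6, map_smul, map_smul, sf_of, h0, smul_zero]
  obtain ⟨c, hc, e⟩ := cfc (hr := ct_bg) (h1 := bg_cwd) (lift_ev a4) h hA a1 a2 a7
  refine ⟨c * n, mul_ne_zero hc (Nat.cast_ne_zero.2 (P275XB.Ok.hn g d)), ?_⟩
  rw [e, mul_smul, ← map_smul clT (n : ℂ)]
  exact congrArg (fun t => c • clT t) (Subtype.ext a6)

/-- **CMPB** from the topological and the algebraic identification -/
theorem cmpb_tb (t : TOPB) (o : OMB) (h : MV0 ∧ LHP) : P275DS.CMPB (IsU h) := cmpb t (cfo h o)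

end Vale.Agent.P275GQ
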