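import Vale.Agent.P275GQ.Fib
import Vale.Agent.P275OM.Cb
import Vale.Agent.P275DS.Chl
import Vale.Agent.P275OI.Defs
import Vale.Agent.P275CW.Cm1

/-!
# P275: the universal class on the character variety, assembly
-/

open scoped Manifold ContDiff Topology
open CategoryTheory P275S Set
open Vale.Agent.P272.K Vale.Agent.P272.K.Prod Vale.Agent.P281Z.Hg Vale.Agent.P275KU
  Vale.Agent.P275MC Vale.Agent.P275Z Vale.Agent.P275OM
open P275CC (Th VB Nc)
open Vale.Agent.P275ST (XB deg dimR)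
open Vale.Agent.P275XB (Ok)
open Vale.Agent.P275DS (CMPB)

set_option backward.isDefEq.respectTransparency false
set_option linter.unusedSectionVars false

noncomputable section

namespace Vale.Agent.P275GQ

attribute [local instance] prodCS isManifold_prod

instance nc_XB (g n : ℕ) (d : ℤ) [Ok g n d] : Nc (XB g n d) :=
  ⟨ChartedSpace.locallyCompactSpace (Cm (2 * dimR g n)) _, inferInstance, inferInstance⟩

/-- **CFO**: the integral over the curve of the class of the adjoint family -/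
def CFO (h : MV0 ∧ P275Z.LHP) : Prop := ∀ (g n : ℕ) (d : ℤ) [Ok g n d] (C : Type) [TopologicalSpace C]
  [Nc C] [CompactSpace C] [ConnectedSpace C] [ChartedSpace (Cm 1) C] [IsManifold 𝓘(ℂ, Cm 1) ω C]
  (A : P275GC.At C) (F : Wc g C) (k : Fin A.N), P275CW.IsA A → F.D ⊆ (A.e k).source →
  (∀ c, F.z c = A.e k c - A.e k F.p) → ∀ (w : SF (2 * dimR g n) (XB g n d))
  (h0 : dd _ _ w = 0), IsOmg (P275DS.LX g n d) w → ∃ c : ℂ, c ≠ 0 ∧
    gys (act_fst (n := 2 * dimR g n) (m := 1)) ((thOf h).p2 (F.vb bg ct_bg bg_cwd)).1 =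
      c • clT ⟨w, h0⟩

theorem topC_add {X C : Type} [TopologicalSpace X] [TopologicalSpace C] {κ : HH C}
    {a : HH (X × C)} {b : HH X} (h : TopC κ a b) (u : HH X) :
    TopC κ (pq ContinuousMap.fst u + a) b := by
  rw [TopC, add_sub_assoc]
  exact add_mem (Submodule.subset_span ⟨u, 0, 1, zero_le_one, one_mem_Hd, by
    rw [map_one, mul_one]⟩) h

theorem cls_eq {S : Sit} (B : S.Brg) (e : HH (B.T.M (tauX S.n))) : B.cls e = pq B.s1 e :=
  DFunLike.congr_fun (pb_homotopic (f₀ := TopCat.ofHom B.s0) (f₁ := TopCat.ofHom B.s1)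
    ⟨⟨B.sg, fun _ => rfl, fun _ => rfl⟩⟩) e

/-- **CMPB** -/
theorem cmpb (t : TOPB) {h : MV0 ∧ P275Z.LHP} (c : CFO h) : CMPB (IsU h) := by
  rintro S B e w h0 ⟨_, _, Sy, κ, h1, h2, h3, h4⟩ hw
  let := P275MK.csA B.T.A
  have := (P275CW.isA B.T.A).mf
  obtain ⟨F, k, V, a1, a2, a3⟩ := t S B (Sy.pb B.s1) (funext fun x => congrFun h1 _)
  obtain ⟨r, hr, a4⟩ := c S.g S.n (deg S.D) S.C B.T.A F k (P275CW.isA _) a1 a2 w h0 hw
  have a5 : TopC κ ((thOf h).p2 (F.vb bg ct_bg bg_cwd)).1 (B.cls e) := by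
    rw [Th.p2_iso a3, Th.p2_sum, Th.p2_pb, P275MM.Sys.pb_tb, Th.p2_end_pb, cls_eq]
    exact topC_add (topC_pb h4 B.s1) _
  have a6 := sg_ne (n := 2 * dimR S.g S.n) h2 h3
  refine ⟨_, mul_ne_zero (inv_ne_zero a6) hr, ?_⟩
  rw [mul_smul, ← clT_Dg (hw.deg P275DS.sc_X), ← a4, gys_top h2 a5, inv_smul_smul₀ a6]

theorem cfo_of {h : MV0 ∧ P275Z.LHP} (c : CFC h) (o : OMB) : CFO h := by
  intro g n d _ C _ _ _ _ _ _ A F k hA a1 a2 w h0 hw
  obtain ⟨r, hr, a3⟩ := c g C F (P275CW.ch A k) (hA.mem k) (fun _ a => P275CW.ch_src.2 (a1 a)) a2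
  obtain ⟨X, a4, a5⟩ := o g n d w hw
  have a6 : (dgF _ _).d (Fr.of w) = 0 := h0
  refine ⟨r * n, mul_ne_zero hr (Nat.cast_ne_zero.2 (Ok.hn g d)), ?_⟩
  rw [a3 _ _ _ X _ _ _ a4, a5, P275CW.cF_smul _ a6, P275CW.cF_eq a6, mul_smul]
  rfl

theorem cmpb_of (t : TOPB) {h : MV0 ∧ P275Z.LHP} (c : CFC h) (o : OMB) : CMPB (IsU h) :=
  cmpb t (cfo_of c o)

end Vale.Agent.P275GQ
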