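import Vale.Agent.P275MC.Fb
import Vale.Agent.P275Z.Th

/-!
# P275: the top component along a curve is an integral along the fibres
-/

open scoped Manifold ContDiff Topology
open CategoryTheory TopologicalSpace P275S Set Filter
open Vale.Agent.P272.K Vale.Agent.P272.K.Prod Vale.Agent.P281Z Vale.Agent.P281Z.Hg
  Vale.Agent.P281Z.Hg.Pb1H Vale.Agent.P275KU Vale.Agent.P275MC Vale.Agent.P275Z
open Vale.Agent.P275AR (Hc dc Act)
open Vale.Agent.P275FM (Coh)

set_option backward.isDefEq.respectTransparency false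
set_option linter.unusedSectionVars false

noncomputable section

namespace Vale.Agent.P275GQ

attribute [local instance] prodCS isManifold_prod

theorem topC_pb {X Y C : Type} [TopologicalSpace X] [TopologicalSpace Y] [TopologicalSpace C]
    {κ : HH C} {a : HH (X × C)} {b : HH X} (h : TopC κ a b) (f : C(Y, X)) :
    TopC κ (pq (f.prodMap (ContinuousMap.id C)) a) (pq f b) := by
  have e : ∀ (u : HH X) (v : HH C), pq (f.prodMap (ContinuousMap.id C))
      (pq ContinuousMap.fst u * pq ContinuousMap.snd v) =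
      pq ContinuousMap.fst (pq f u) * pq ContinuousMap.snd v := fun u v => by
    rw [map_mul, pq, pq, pq, pq, pq, pq, P275S.pb_comp, P275S.pb_comp, P275S.pb_comp]
    rfl
  rw [TopC, ← e, ← map_sub]
  rw [TopC] at h
  generalize a - pq ContinuousMap.fst b * pq ContinuousMap.snd κ = t at h
  induction h using Submodule.span_induction with
  | mem t ht =>
    obtain ⟨u, j, v, hj, hv, rfl⟩ := ht
    exact Submodule.subset_span ⟨_, j, v, hj, hv, e u v⟩
  | zero =>
    rw [map_zero]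
    exact zero_mem _
  | add s t _ _ hs ht =>
    rw [map_add]
    exact add_mem hs ht
  | smul r t _ ht =>
    rw [map_smul]
    exact Submodule.smul_mem _ r ht

variable {n k m : ℕ} {X U F : Type} [TopologicalSpace X] [ChartedSpace (Cm n) X]
  [IsManifold 𝓘(ℂ, Cm n) ω X] [TopologicalSpace F] [ChartedSpace (Cm m) F]
  [IsManifold 𝓘(ℂ, Cm m) ω F] [TopologicalSpace U]

theorem smo_pm [ChartedSpace (Cm k) U] [IsManifold 𝓘(ℂ, Cm k) ω U] {j : U → X} (hj : Smo k n j) :
    Smo (k + m) (n + m) (Prod.map j id : U × F → X × F) :=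
  smo_pair (smo_comp smo_fst hj) smo_snd

theorem pb_pm_fst [ChartedSpace (Cm k) U] [IsManifold 𝓘(ℂ, Cm k) ω U] {j : U → X}
    (hj : Smo k n j) (z : SF n X) :
    pb (smo_pm (F := F) (m := m) hj) (pb smo_fst z) = pb smo_fst (pb hj z) :=
  (pb_comp _ _ z).symm.trans (pb_comp smo_fst hj z)

theorem pb_pm_snd [ChartedSpace (Cm k) U] [IsManifold 𝓘(ℂ, Cm k) ω U] {j : U → X}
    (hj : Smo k n j) (z : SF m F) : pb (smo_pm hj) (pb smo_snd z) = pb smo_snd z :=
  (pb_comp _ _ z).symm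

variable [ChartedSpace (Cm n) U] [IsManifold 𝓘(ℂ, Cm n) ω U] {j : U → X}

theorem oe_pm (h : OE n j) : OE (n + m) (Prod.map j id : U × F → X × F) :=
  ⟨smo_pm h.smo, h.inj.prodMap Function.injective_id, fun x => by
    obtain ⟨g, h1, h2, h3⟩ := h.inv x.1
    have k1 : SmA (n + m) n (fun y : X × F => g y.1) (j x.1, x.2) :=
      SmA.comp (f := Prod.fst) h2 (smA_of smo_fst _)
    refine ⟨Prod.map g id, Prod.ext h1 rfl, ⟨k1.cont.prodMk continuousAt_snd, fun c E hc hE => ?_⟩,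
      (continuousAt_fst.eventually (p := fun y => j (g y) = y) h3).mono fun y hy =>
        Prod.ext hy rfl⟩
    obtain ⟨e, e', rfl, a1, a2⟩ := at_dec hE
    exact contDiff_glue (k1.sm c e hc a1) ((smA_of smo_snd _).sm c e' hc a2)⟩

variable (n m) in
/-- the splitting of the coordinates -/
def glE : (Cm n × Cm m) ≃L[ℝ] Cm (n + m) := LinearEquiv.toContinuousLinearEquiv
  { toFun := fun p => glue p.1 p.2
    invFun := fun z => (fstP z, sndP z)
    map_add' := fun p q => funext fun i => Fin.addCases (fun i => by simp) (fun i => by simp) i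
    map_smul' := fun r p => funext fun i => Fin.addCases (fun i => by simp) (fun i => by simp) i
    left_inv := fun p => Prod.ext (fstP_glue _ _) (sndP_glue _ _)
    right_inv := glue_fst_snd }

theorem ori_pm (h : Smo n n j) (ho : Ori n j) : Ori (n + m) (Prod.map j id : U × F → X × F) := by
  intro x
  obtain ⟨e, c, he, hc, h0⟩ := ho x.1
  have hb := ca (d := m) x.2
  set b := chartAt (Cm m) x.2
  refine ⟨pc e b, pc c b, at_pc he hb, at_pc hc hb, ?_⟩
  have h1 := ((h.sm e c _ he hc).differentiableAt (by simp)).hasFDerivAt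
  set D := fderiv ℝ (fun z => c (j (e.symm z))) (e x.1)
  have h4 : HasFDerivAt (Prod.map (fun z => c (j (e.symm z))) id)
      (D.prodMap (ContinuousLinearMap.id ℝ (Cm m))) ((glE n m).symm (glE n m (e x.1, b x.2))) := by
    rw [(glE n m).symm_apply_apply]
    exact HasFDerivAt.prodMap (e x.1, b x.2) h1 (hasFDerivAt_id (b x.2))
  have h2 := (glE n m).hasFDerivAt.comp (glE n m (e x.1, b x.2))
    (h4.comp (glE n m (e x.1, b x.2)) (glE n m).symm.hasFDerivAt)
  have h3 : HasFDerivAt (fun z => pc c b (Prod.map j id ((pc e b).symm z))) _ (pc e b x) :=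
    h2.congr_of_eventuallyEq (by
      filter_upwards [(pc e b).open_target.mem_nhds ((pc e b).map_source (at_pc he hb).2)] with z hz
      exact congrArg (glue _) (b.right_inv hz.2))
  rw [h3.fderiv]
  refine h0.trans_eq ?_
  refine Eq.trans ?_ (LinearMap.det_conj ((D : Cm n →ₗ[ℝ] Cm n).prodMap LinearMap.id)
    (glE n m).toLinearEquiv).symm
  rw [LinearMap.det_prodMap, LinearMap.det_id, mul_one]

variable [T2Space X] [T2Space F] [T2Space U] [CompactSpace F]

/-- the integral of `Φ` along the fibres is `c w` over `V` -/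
def FI (c : ℂ) (Φ : SF (n + m) (X × F)) (w : SF n X) (V : Set X) : Prop :=
  ∀ z ∈ Ac n V, itc (n + m) (X × F) (wd Φ (pb smo_fst z)) = c * itc n X (wd w z)

variable {c : ℂ} {Φ : SF (n + m) (X × F)} {w : SF n X} {V : Set X}

theorem fst_Ac {z : SF n X} (hz : z ∈ Ac n V) :
    pb smo_fst z ∈ Ac (n + m) (Prod.fst ⁻¹' V : Set (X × F)) :=
  pb_Ac smo_fst (fun _ hK _ => isProperMap_fst_of_compactSpace.isCompact_preimage hK) hz

theorem FI.mono {V' : Set X} (h : FI c Φ w V) (hV : V' ⊆ V) : FI c Φ w V' :=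
  fun z hz => h z (Ac_mono hV hz)

theorem FI.iUnion {ι : Type} {V : ι → Set X} (hV : ∀ i, IsOpen (V i))
    (h : ∀ i, FI c Φ w (V i)) : FI c Φ w (⋃ i, V i) := fun z hz => by
  rw [Ac_iUnion hV] at hz
  refine Submodule.iSup_induction _ (motive := fun z => itc (n + m) (X × F)
    (wd Φ (pb smo_fst z)) = c * itc n X (wd w z)) hz h (by simp only [map_zero, mul_zero])
    fun u v h1 h2 => by simp only [map_add, h1, h2, mul_add]

theorem FI.of_loc (h : ∀ x ∈ V, ∃ O, IsOpen O ∧ x ∈ O ∧ FI c Φ w O) : FI c Φ w V := by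
  choose O h1 h2 h3 using h
  exact (FI.iUnion (fun x : V => h1 x x.2) fun x => h3 x x.2).mono fun x hx =>
    mem_iUnion.2 ⟨⟨x, hx⟩, h2 x hx⟩

theorem fi_pb (oj : OE n j) (ho : Ori n j) {z : SF n X} (hz : z ∈ Ac n (range j)) :
    itc (n + m) (U × F) (wd (pb (smo_pm oj.smo) Φ) (pb smo_fst (pb oj.smo z))) =
      itc (n + m) (X × F) (wd Φ (pb smo_fst z)) ∧
      itc n U (wd (pb oj.smo w) (pb oj.smo z)) = itc n X (wd w z) := by
  refine ⟨?_, by rw [← pb_wd, oj.itc_pb ho (wd_Ac _ hz)]⟩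
  rw [← pb_pm_fst, ← pb_wd]
  refine (oe_pm oj).itc_pb (ori_pm oj.smo ho) (wd_Ac _ (Ac_mono ?_ (fst_Ac hz)))
  rintro ⟨_, y⟩ ⟨x, rfl⟩
  exact ⟨(x, y), rfl⟩

/-- from an open part to the manifold -/
theorem FI.of_pb (oj : OE n j) (ho : Ori n j) {W : Set U}
    (h : FI c (pb (smo_pm oj.smo) Φ) (pb oj.smo w) W) : FI c Φ w (j '' W) := fun z hz => by
  have h1 := fi_pb (Φ := Φ) (w := w) oj ho (Ac_mono (image_subset_range j W) hz)
  rw [← h1.1, ← h1.2]
  exact h _ (oj.inj.preimage_image W ▸ oj.pb_Ac (image_subset_range j W) hz)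

/-- from the manifold to an open part -/
theorem FI.res (oj : OE n j) (ho : Ori n j) (h : FI c Φ w V) :
    FI c (pb (smo_pm oj.smo) Φ) (pb oj.smo w) (j ⁻¹' V) := fun z hz => by
  have h0 := oj.ext_Ac hz
  have h1 := fi_pb (Φ := Φ) (w := w) oj ho (Ac_mono (image_subset_range j _) h0)
  rw [← oj.pb_ext hz, h1.1, h1.2]
  exact h _ (Ac_mono (image_preimage_subset j V) h0)

theorem FI.congr {Φ' : SF (n + m) (X × F)} {w' : SF n X} (h : FI c Φ w V)
    (h1 : ∀ x ∈ V, ∀ y, Φ' - Φ ∈ ZP (x, y)) (h2 : ∀ x ∈ V, w' - w ∈ ZP x) : FI c Φ' w' V := by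
  rintro z ⟨K, k1, k2, k3⟩
  have e1 : wd (Φ' - Φ) (pb smo_fst z) = 0 := eq_zero_of_ZP fun x => by
    by_cases hx : x.1 ∈ K
    · exact wd_ZP_left (h1 _ (k2 hx) _) _
    · exact op_ZP (opr_vl _) (pb_ZP smo_fst (k3 _ hx))
  have e2 : wd (w' - w) z = 0 := eq_zero_of_ZP fun x => by
    by_cases hx : x ∈ K
    · exact wd_ZP_left (h2 _ (k2 hx)) _
    · exact op_ZP (opr_vl _) (k3 _ hx)
  rw [← sub_add_cancel Φ' Φ, ← sub_add_cancel w' w, wd_add, wd_add, e1, e2, zero_add, zero_add]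
  exact h z ⟨K, k1, k2, k3⟩

variable [SecondCountableTopology X] [SecondCountableTopology F]

theorem FI.gy (h : FI c Φ w univ) (hΦ : dd (n + m) (X × F) Φ = 0) (hw : dd n X w = 0) :
    gys (act_fst (n := n) (m := m)) (clT ⟨Φ, hΦ⟩) = c • clT ⟨w, hw⟩ := H_ext (d := n) fun x => by
  obtain ⟨z, hz, rfl⟩ := Coh.ind x
  rw [pd_gys, Act.map_mk, pd_clT, map_smul, LinearMap.smul_apply, pd_clT]
  exact h z.1 z.2

theorem gys_sf (u : HH X) (v : HH F) : gys (act_fst (n := n) (m := m))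
    (pq ContinuousMap.snd v * pq ContinuousMap.fst u) = (sgc n m * itK m F v) • u :=
  (gys_mul act_fst _ u).trans ((congrArg (· * u) (gys_fst act_fst v)).trans
    (by rw [smul_mul_assoc, one_mul]))

theorem itK_ne {l : ℤ} {v : HH F} (hv : v ∈ Hd ℂ (TopCat.of F) l) (hl : l ≠ (m + m : ℕ)) :
    itK m F v = 0 := by
  obtain ⟨u, hu, h0, rfl⟩ := cl_surj (d := m) hv
  rw [itK_cl hu]
  exact itc_ne ⟨by rw [Ac_univ]; trivial, hu⟩ hl.symm

theorem gys_fs (u : HH X) {l : ℤ} {v : HH F} (hv : v ∈ Hd ℂ (TopCat.of F) l) :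
    gys (act_fst (n := n) (m := m)) (pq ContinuousMap.fst u * pq ContinuousMap.snd v) =
      (sgc n m * itK m F v) • u := by
  have := nice (d := n + m) (M := X × F)
  induction u using KG.ind_deg with
  | h0 => simp only [map_zero, zero_mul, smul_zero]
  | hadd a b ha hb => simp only [map_add, add_mul, ha, hb, smul_add]
  | hmk i u hu =>
    refine (congrArg _ (mul_comm_Hd (X := TopCat.of (X × F))
      (pb_mem (TopCat.ofHom ContinuousMap.fst) hu)
      (pb_mem (TopCat.ofHom ContinuousMap.snd) hv))).trans ?_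
    rw [Units.smul_def, map_zsmul]
    refine (congrArg _ (gys_sf u v)).trans ?_
    by_cases e : l = (m + m : ℕ)
    · rw [Int.negOnePow_even _ (Even.mul_left (show Even l from ⟨m, by omega⟩) _), Units.val_one,
        one_smul]
    · rw [itK_ne hv e, mul_zero, zero_smul, smul_zero]

section curve

variable {C : Type} [TopologicalSpace C] [ChartedSpace (Cm 1) C] [IsManifold 𝓘(ℂ, Cm 1) ω C]
  [T2Space C] [CompactSpace C] [SecondCountableTopology C] {κ : HH C} {a : HH (X × C)} {b : HH X}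

theorem gys_low (h : a ∈ Low1 X C) : gys (act_fst (n := n) (m := 1)) a = 0 := by
  induction h using Submodule.span_induction with
  | mem a ha =>
    obtain ⟨u, l, v, hl, hv, rfl⟩ := ha
    rw [gys_fs u hv, itK_ne hv (by omega), mul_zero, zero_smul]
  | zero => exact map_zero _
  | add a b _ _ ha hb => rw [map_add, ha, hb, add_zero]
  | smul r a _ ha => rw [map_smul, ha, smul_zero]

/-- **the top component is the Gysin image** -/
theorem gys_top (hκ : κ ∈ Hd ℂ (TopCat.of C) 2) (h : TopC κ a b) :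
    gys (act_fst (n := n) (m := 1)) a = (sgc n 1 * itK 1 C κ) • b := by
  have h1 := gys_low (n := n) h
  rwa [map_sub, gys_fs b hκ, sub_eq_zero] at h1

theorem sg_ne [PreconnectedSpace C] (hκ : κ ∈ Hd ℂ (TopCat.of C) 2) (h0 : κ ≠ 0) :
    sgc n 1 * itK 1 C κ ≠ 0 := mul_ne_zero sgc_ne fun e => h0 (itK_inj (d := 1) hκ e)

/-- **FIN**, global form -/
theorem fin0 (hκ : κ ∈ Hd ℂ (TopCat.of C) 2) (h : TopC κ a b) {Φ : SF (n + 1) (X × C)}
    {hΦ : dd (n + 1) (X × C) Φ = 0} (hw : dd n X w = 0) {r : ℂ} (e : a = r • clT ⟨Φ, hΦ⟩)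
    (f : FI c Φ w univ) : (sgc n 1 * itK 1 C κ) • b = (r * c) • clT ⟨w, hw⟩ := by
  rw [← gys_top hκ h, e, map_smul, f.gy hΦ hw, smul_smul]

/-- **FIN**, on the relatively compact open parts -/
theorem fin1 (hκ : κ ∈ Hd ℂ (TopCat.of C) 2) (h : TopC κ a b) (hw : dd n X w = 0) {r : ℂ}
    (e : ∀ O : Opens X, IsCompact (closure (O : Set X)) → ∃ (Φ : SF (n + 1) (O × C))
      (hΦ : dd (n + 1) (O × C) Φ = 0), pq ((P275CC.inc (O : Set X)).prodMap (ContinuousMap.id C)) a =
        r • clT ⟨Φ, hΦ⟩ ∧ FI c Φ (pb (oe_val O).smo w) univ) :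
    (sgc n 1 * itK 1 C κ) • b = (r * c) • clT ⟨w, hw⟩ := by
  refine sub_eq_zero.1 (eq_zero_of_loc (d := n) fun O h1 h2 => ?_)
  obtain ⟨Φ, hΦ, e1, e2⟩ := e ⟨O, h1⟩ h2
  have h3 := fin0 (X := (⟨O, h1⟩ : Opens X)) hκ (topC_pb h (P275CC.inc O))
    (pb_Zf (oe_val ⟨O, h1⟩).smo ⟨w, hw⟩) e1 e2
  rw [clT_pb _ ⟨w, hw⟩] at h3
  rw [map_sub, map_smul, map_smul]
  exact sub_eq_zero.2 h3

end curve

end Vale.Agent.P275GQ
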