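import Vale.Agent.P275GQ.Cfc
import Vale.Agent.P275TO.Top
import Vale.Agent.P275DS.Omb

/-!
# P275: the universal class is a multiple of the class of the symplectic form
-/

open Vale.Agent.P275Z

namespace Vale.Agent.P275GQ

/-- **CMPB** -/
theorem cmpb_ok (h : MV0 ∧ LHP) : P275DS.CMPB (IsU h) := cmpb_tb P275TO.topb P275DS.omb h

end Vale.Agent.P275GQ
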