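import Vale.Agent.P275CH.Sp
import Vale.Agent.P275BW.Gen

/-!
P275 (helper22): the maps between the bundles of the descent.
-/

set_option linter.all false

open Set Topology Function Matrix Sum
open P275BC hiding mt
open P275QV Vale.Agent.P275BW
open Vale.Agent.P275OM (Mx)
open Vale.Agent.P275ST (Rep XB zeta dimR)
open Vale.Agent.P275XB (Ok ix ep mem_range_ep ep_inj dimZ cX pk prim alg_pt reg_ep sbm_pt)
open Vale.Agent.P281Z (HolM Emb Sbm)
open Vale.Agent.P275RG (Alg)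
open P275CC (LB PFib Nc)
open P275S (th)

noncomputable section

namespace Vale.Agent.P275CH

variable {n g r : ℕ} {d : ℤ} {V V' : Submodule ℂ (Mx n)} {h h' v v' : Mx n} {t : ℂ}
  {x x' : Ix n g → ℂ}

theorem cjx_rz (k : h.det ≠ 0) (hx : x ∈ Rz n g (zeta n d)) : cjx h h⁻¹ x ∈ Rz n g (zeta n d) :=
  ⟨fun a b => by rw [mt_cjx, det_cj k, hx.1], by
    rw [mu_cjx k, hx.2, Matrix.mul_smul, Matrix.mul_one, Matrix.smul_mul,
      mul_nonsing_inv _ k.isUnit]⟩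

theorem cjx_smul (k : t ≠ 0) (k' : h.det ≠ 0) (x : Ix n g → ℂ) :
    cjx (t • h) (t • h)⁻¹ x = cjx h h⁻¹ x := by
  rw [inv_eq_right_inv (B := t⁻¹ • h⁻¹) (by simp [smul_smul, k, mul_nonsing_inv _ k'.isUnit])]
  funext i
  simp [cjx, k]

theorem cont_cjx {Y : Type} [TopologicalSpace Y] {a b : Y → Mx n} {x : Y → Ix n g → ℂ}
    (ha : Continuous a) (hb : Continuous b) (hx : Continuous x) :
    Continuous fun y => cjx (a y) (b y) (x y) :=
  continuous_pi fun i => ((ha.matrix_mul (continuous_matrix fun _ _ =>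
    (continuous_apply _).comp hx)).matrix_mul hb).matrix_elem _ _

theorem cont_inr : Continuous fun y : EV g d V => y.1 ∘ inr :=
  continuous_pi fun _ => (continuous_apply _).comp continuous_subtype_val

theorem rl_one (k : t ≠ 0) : Rl 1 t (pt (t • v) x) (pt v x) :=
  ⟨(Rl.refl (pt v x)).1, by simp, k, by simp [vm_pt], (cjx_one _).symm⟩

theorem ep_rz (ρ : Rep g n d) : ix (ep ρ) ∈ Rz n g (zeta n d) := mem_range_ep.1 ⟨ρ, rfl⟩

theorem rep_ix (ρ : Rep g n d) : rep _ (ep_rz ρ) = ρ := ep_inj (ix.injective (ix_rep _ _))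

theorem rep_val (k : x ∈ Rz n g (zeta n d)) (s : Fin g × Bool) :
    ((rep x k).1 s).1 = P275BC.mt x s.1 s.2 :=
  Matrix.ext fun a b => congrFun (ix_rep x k) (s.1, s.2, a, b)

theorem inc_cemb (k : V ≤ V') (hV : Bst V) : IsClosedEmbedding (inc (g := g) (d := d) k) := by
  refine cemb_quot (g := fun y : EV g d V => ⟨y.1, k y.2.1, y.2.2⟩) mk_quo mk_quo
    ⟨IsEmbedding.of_comp (continuous_subtype_val.subtype_mk _) continuous_subtype_val .subtypeVal,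
      ?_⟩ (fun _ => rfl) (Quot.ind fun _ => Quot.ind fun _ e => mk_eq.2 (mk_eq (V := V').1 e))
    fun a q e => ?_
  · rw [show range _ = (fun y : EV g d V' => vm y.1) ⁻¹' V from Subset.antisymm
      (range_subset_iff.2 fun y => y.2.1) fun y h => ⟨⟨y.1, h, y.2.2⟩, rfl⟩]
    exact V.closed_of_finiteDimensional.preimage (cont_vm.comp continuous_subtype_val)
  · obtain ⟨q, rfl⟩ := mk_quo.surjective q
    obtain ⟨h, t, e⟩ := mk_eq.1 e
    exact ⟨⟨a.1, e.2.2.2.1 ▸ V.smul_mem t (hV h e.1 e.2.1 _ q.2.1), a.2.2⟩, rfl⟩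

/-- the point of the flag bundle given by a tuple -/
def fl (x : Ix (r + 1) g → ℂ) (k : x ∈ Rz (r + 1) g (zeta (r + 1) d)) : EV g d (V1 (r + 1)) :=
  ⟨pt 1 x, Submodule.mem_span_singleton_self _, one_ne_zero, k⟩

theorem mk_fl (y : EV g d (V1 (r + 1))) : mk (fl _ y.2.2.2) = mk y := by
  obtain ⟨c, e⟩ := Submodule.mem_span_singleton.1 y.2.1
  have := rl_one (t := c) (v := 1) (x := y.1 ∘ inr) fun k => y.2.2.1 (by rw [← e, k, zero_smul])
  rw [e, pt_vm] at this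
  exact (mk_eq (y := y) (y' := fl _ y.2.2.2).2 ⟨1, c, this⟩).symm

theorem fl_eq {x x' : Ix (r + 1) g → ℂ} {k k'} : mk (fl (d := d) x k) = mk (fl x' k') ↔
    ∃ h, UT h ∧ h.det ≠ 0 ∧ x = cjx h h⁻¹ x' :=
  mk_eq.trans ⟨fun ⟨h, _, e⟩ => ⟨h, e.1, e.2.1, e.2.2.2.2⟩, fun ⟨h, a, b, c⟩ =>
    ⟨h, 1, a, b, one_ne_zero, by simp [fl, vm_pt, mul_nonsing_inv _ b.isUnit], c⟩⟩

theorem cont_fl {Y : Type} [TopologicalSpace Y] {x : Y → Ix (r + 1) g → ℂ} (hx : Continuous x)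
    (k : ∀ y, x y ∈ Rz (r + 1) g (zeta (r + 1) d)) : Continuous fun y => fl (x y) (k y) :=
  (cont_pt continuous_const hx).subtype_mk _

section fib

variable {V : Submodule ℂ (Mx (r + 1))} {k : ℕ} (L : (Fin (k + 1) → ℂ) ≃ₗ[ℂ] V) (hV : Bst V)

theorem L_ne {w : Fin (k + 1) → ℂ} (h : w ≠ 0) : (L w).1 ≠ 0 := fun e =>
  h (L.map_eq_zero_iff.1 (Subtype.ext e))

theorem cont_L : Continuous fun w => (L w).1 :=
  (V.subtype ∘ₗ L.toLinearMap).continuous_of_finiteDimensional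

include hV in
theorem fib_ex {y : EV g d V} {x k'} (e : prj V (mk y) = mk (fl x k')) :
    ∃ w, ∃ h : w ≠ 0, mk y = mk ⟨pt (L w) x, (L w).2, L_ne L h, k'⟩ := by
  obtain ⟨h, a, b, c⟩ := (fl_eq (k := y.2.2.2)).1 e
  have h1 := hV _ (ut_inv a b) (det_inv_ne b) _ y.2.1
  have h2 : vm y.1 = h * (h⁻¹ * vm y.1 * h⁻¹⁻¹) * h⁻¹ := by
    rw [nonsing_inv_nonsing_inv _ b.isUnit, ← Matrix.mul_assoc, mul_nonsing_inv_cancel_left _ _
      b.isUnit, mul_nonsing_inv_cancel_right _ _ b.isUnit]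
  refine ⟨L.symm ⟨_, h1⟩, fun k => y.2.2.1 ?_, mk_eq.2 ⟨h, 1, a, b, one_ne_zero, ?_, c⟩⟩
  · rw [h2, show h⁻¹ * _ * _ = 0 from congrArg Subtype.val (L.symm.map_eq_zero_iff.1 k)]
    simp
  · rw [one_smul, vm_pt, L.apply_symm_apply]
    exact h2

include L hV in
theorem prj_proper : IsProperMap (prj (g := g) (d := d) V) := by
  refine proper_of (K := Metric.sphere (0 : Fin (k + 1) → ℂ) 1) mk_quo (prj V).continuous
    (m := fun z => mk ⟨pt (L z.1) (z.2.1 ∘ inr), (L z.1).2, L_ne L (ne_zero_of_mem_unit_sphere _),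
      z.2.2.2.2⟩) (mk_quo.continuous.comp ((cont_pt ((cont_L L).comp (continuous_subtype_val.comp
        continuous_fst)) (cont_inr.comp continuous_snd)).subtype_mk _)) (fun _ e => mk_fl e)
    fun y e l => ?_
  obtain ⟨y, rfl⟩ := mk_quo.surjective y
  obtain ⟨w, a, b⟩ := fib_ex L hV (l.trans (mk_fl e).symm)
  have c : (‖w‖ : ℂ) ≠ 0 := Complex.ofReal_ne_zero.2 (norm_ne_zero_iff.2 a)
  refine ⟨⟨(‖w‖ : ℂ)⁻¹ • w, by simp [norm_smul, a]⟩, b.trans (mk_eq.2 ⟨1, ‖w‖, ?_⟩)⟩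
  have := rl_one (v := (L ((‖w‖ : ℂ)⁻¹ • w)).1) (x := e.1 ∘ inr) c
  rwa [← Submodule.coe_smul, ← map_smul, smul_inv_smul₀ c] at this

end fib

variable [Ok g (r + 1) d] {x x' : Ix (r + 1) g → ℂ} {h : Mx (r + 1)}

theorem cjx_fix (hx : x ∈ Rz (r + 1) g (zeta (r + 1) d)) (k : h.det ≠ 0) (e : x = cjx h h⁻¹ x) :
    ∃ c : ℂ, c ≠ 0 ∧ h = c • 1 := by
  obtain ⟨c, l⟩ := P275OM.schur r.succ_pos (P275OM.irr (gnc_root (prim g)) (rz_sub hx)) h
    fun a b => by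
      conv_rhs => rw [e, mt_cjx, nonsing_inv_mul_cancel_right _ _ k.isUnit]
  exact ⟨c, fun m => k (by simp [l, m]), l⟩

theorem prj_pfib {V : Submodule ℂ (Mx (r + 1))} {k : ℕ} (L : (Fin (k + 1) → ℂ) ≃ₗ[ℂ] V)
    (hV : Bst V) (hT : Loc (mk : EV g d V → _) Tt) (b) : PFib hT.lb (prj V ⁻¹' {b}) k 1 := by
  classical
  obtain ⟨y, rfl⟩ := mk_quo.surjective b
  let u : (Fin (k + 1) → ℂ) → Fin (k + 1) → ℂ := fun w => if w = 0 then 1 else w
  have u0 : ∀ w, u w ≠ 0 := fun w => by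
    by_cases e : w = 0
    exacts [(if_pos e).trans_ne one_ne_zero, (if_neg e).trans_ne e]
  let q : (Fin (k + 1) → ℂ) → EV g d V := fun w =>
    ⟨pt (L (u w)) (y.1 ∘ inr), (L _).2, L_ne L (u0 w), y.2.2.2⟩
  have q1 : ∀ w, w ≠ 0 → (q w).1 = pt (L w) (y.1 ∘ inr) := fun w e => by
    simp only [q, u, if_neg e]
  have key := hT.pfib (q := q) (e := 1) (IsInducing.subtypeVal.continuousOn_iff.2
    ((cont_pt (cont_L L) continuous_const).continuousOn.congr q1)) (fun v w a b => ?_)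
    fun v c a b => ⟨1, ?_⟩
  · rwa [show _ '' _ = prj V ⁻¹' {mk y} from Subset.antisymm ?_ fun z e => ?_] at key
    · rintro _ ⟨w, -, rfl⟩
      exact mk_fl y
    · obtain ⟨z, rfl⟩ := mk_quo.surjective z
      obtain ⟨w, a, b⟩ := fib_ex L hV (e.trans (mk_fl y).symm)
      exact ⟨w, a, (b.trans (congrArg mk (Subtype.ext (q1 w a).symm))).symm⟩
  · rw [mk_eq, q1 v a, q1 w b]
    refine ⟨fun ⟨h, t, e⟩ => ⟨t, L.injective (Subtype.ext ?_)⟩, fun ⟨c, e⟩ => ⟨1, c, ?_⟩⟩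
    · obtain ⟨c, k1, rfl⟩ := cjx_fix y.2.2.2 e.2.1 e.2.2.2.2
      rw [map_smul, Submodule.coe_smul]
      refine e.2.2.2.1.trans (congrArg _ ?_)
      rw [vm_pt, Matrix.smul_mul, Matrix.one_mul, ← Matrix.mul_one (c • _), Matrix.smul_mul,
        ← Matrix.mul_smul, mul_nonsing_inv_cancel_right _ _ e.2.1.isUnit]
    · rw [e, map_smul]
      exact rl_one fun k => a (by rw [e, k, zero_smul])
  · have := rl_one (v := (L (c • v)).1) (x := y.1 ∘ inr) (inv_ne_zero b)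
    rwa [← Submodule.coe_smul, ← map_smul, inv_smul_smul₀ b, ← q1 v a, ← q1 _ (smul_ne_zero b a),
      ← pow_one c⁻¹, inv_pow] at this

theorem rep_pt {k k'} : (rep (d := d) x k).pt = (rep x' k').pt ↔
    ∃ h : Mx (r + 1), h.det ≠ 0 ∧ x' = cjx h h⁻¹ x := by
  refine ((bx g (r + 1) d).symm.injective.eq_iff.symm.trans ptX_iff).trans
    ⟨fun ⟨σ, a, b⟩ => ⟨σ⁻¹, det_inv_ne a, funext fun i => ?_⟩,
      fun ⟨σ, a, b⟩ => ⟨σ⁻¹, det_inv_ne a, fun s => ?_⟩⟩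
  · have := b (i.1, i.2.1)
    rw [rep_val, rep_val] at this
    rw [cjx, nonsing_inv_nonsing_inv _ a.isUnit, ← this]
    rfl
  · rw [rep_val, rep_val, b, mt_cjx, nonsing_inv_nonsing_inv _ a.isUnit]

/-- the projection to the character variety -/
def piX : C(Pq g d (V1 (r + 1)), XB g (r + 1) d) :=
  lft (fun y => (rep _ y.2.2.2).pt) (continuous_quot_mk.comp
    ((pk g (r + 1) d).emb.isInducing.continuous_iff.2 ((ix.symm.continuous.comp cont_inr).congr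
      fun y => ix.symm_apply_eq.2 (ix_rep _ _).symm)))
    fun _ _ h _ e => (rep_pt.2 ⟨h, e.2.1, e.2.2.2.2⟩).symm

/-- the point of the fibre given by an invertible matrix -/
def fG (z : GL (Fin (r + 1)) ℂ × Rep g (r + 1) d) : EV g d (V1 (r + 1)) :=
  fl _ (cjx_rz z.1.det_ne_zero (ep_rz z.2))

theorem cont_fG : Continuous (fG : _ → EV g d (V1 (r + 1))) :=
  cont_fl (cont_cjx (Units.continuous_val.comp continuous_fst)
    ((Units.continuous_coe_inv.comp continuous_fst).congr fun _ => coe_units_inv _)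
    (ix.continuous.comp ((pk g (r + 1) d).emb.continuous.comp continuous_snd))) _

theorem piX_fG (z : GL (Fin (r + 1)) ℂ × Rep g (r + 1) d) : piX (mk (fG z)) = z.2.pt :=
  (rep_pt.2 ⟨_, z.1.det_ne_zero, rfl⟩).symm.trans (congrArg Rep.pt (rep_ix _))

theorem ex_fG {y : Pq g d (V1 (r + 1))} {ρ : Rep g (r + 1) d} (e : piX y = ρ.pt) :
    ∃ a, y = mk (fG (a, ρ)) := by
  obtain ⟨y, rfl⟩ := mk_quo.surjective y
  obtain ⟨h, a, b⟩ := rep_pt.1 ((congrArg Rep.pt (rep_ix ρ)).trans e.symm)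
  exact ⟨GeneralLinearGroup.mkOfDetNeZero h a, (mk_fl y).symm.trans
    (congrArg mk (Subtype.ext (congrArg (pt 1) b)))⟩

theorem fG_eq {a b : GL (Fin (r + 1)) ℂ} {ρ : Rep g (r + 1) d} :
    mk (fG (a, ρ)) = mk (fG (b, ρ)) ↔ ∃ h : Mx (r + 1), UT h ∧ a.1 = h * b.1 := by
  refine fl_eq.trans ⟨fun ⟨h, k1, k2, k3⟩ => ?_, fun ⟨h, k1, k2⟩ =>
    ⟨h, k1, left_ne_zero_of_mul (det_mul h b.1 ▸ k2 ▸ a.det_ne_zero), by rw [← cjx_mul, ← k2]⟩⟩
  have k4 := a.det_ne_zero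
  obtain ⟨c, k5, k6⟩ := cjx_fix (h := a.1⁻¹ * (h * b.1)) (ep_rz ρ) (by
    rw [det_mul, det_mul]; exact mul_ne_zero (det_inv_ne k4) (mul_ne_zero k2 b.det_ne_zero)) (by
    rw [cjx_mul, cjx_mul, ← k3, ← cjx_mul, nonsing_inv_mul _ k4.isUnit, cjx_one])
  refine ⟨c⁻¹ • h, ut_smul _ k1, ?_⟩
  rw [Matrix.smul_mul, ← mul_nonsing_inv_cancel_left _ (h * b.1) k4.isUnit, k6, Matrix.mul_smul,
    Matrix.mul_one, inv_smul_smul₀ k5]

/-- **MAPS** -/
theorem maps (hF : FLAG) : MAPS := by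
  refine fun r g d _ => ⟨fun V V' m D m' D' X X' => ⟨fun k hV => ⟨X.map X'
    (g := fun y => ⟨y.1, k y.2.1, y.2.2⟩) X.crd fun _ => rfl, inc_cemb k hV⟩,
    fun v h1 h2 h3 => X.map X' (g := fun y => ⟨pt v (y.1 ∘ inr), h1, h2, y.2.2.2⟩) ?_ fun _ => rfl⟩,
    fun V k hT hV e => ?_, fun m D X hL => ?_⟩
  · rintro (i | i)
    exacts [s_const _ _, X.crd (inr i)]
  · have L := LinearEquiv.ofFinrankEq (R := ℂ) (Fin (k + 1) → ℂ) V (by simp [e])
    exact ⟨prj_proper L hV, prj_pfib L hV hT⟩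
  obtain ⟨Z, _, _, π, hZ, K, k1, k2, k3, k4⟩ := hF (r + 1)
  have a1 : Alg X.vr.cp (cX g (r + 1) d) piX := X.ofQ (M := vXB g (r + 1) d)
    (alg_pt.comp (alg_rep (f := fun y : X.vrE.X => rep _ y.2.2.2) fun s a b =>
      (funext fun y => congrFun (ix_rep _ y.2.2.2) (s.1, s.2, a, b) :
        (fun y : X.vrE.X => _) = _).symm ▸ X.crd (inr (s.1, s.2, a, b))))
  have a2 : Alg (vR g (r + 1) d).cp X.vr.cp fun ρ => mk (fl _ (ep_rz ρ)) := X.toQ (by
    rintro (i | i)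
    exacts [s_const _ _, reg_ep (i.1, i.2.1) _ _])
  have := isCompact_iff_compactSpace.1 k1
  refine ⟨piX, fun _ => rfl, a1, proper_of (K := K) isQuotientMap_quot_mk piX.continuous
    (m := fun z => mk (fG (z.1.1, z.2))) (mk_quo.continuous.comp (cont_fG.comp
      (continuous_subtype_val.prodMap continuous_id))) (fun k ρ => piX_fG _) fun y ρ e => ?_,
    fun x => ?_, fun x => ?_⟩
  · obtain ⟨a, rfl⟩ := ex_fG e
    obtain ⟨b, l, l'⟩ := k2.ge (mem_univ (π a))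
    exact ⟨⟨b, l⟩, fG_eq.2 ((k3 _ _).1 l'.symm)⟩
  · obtain ⟨ρ, rfl⟩ := Quot.exists_rep x
    have e : ∀ ρ : Rep g (r + 1) d, piX (mk (fl _ (ep_rz ρ))) = ρ.pt :=
      fun ρ => congrArg Rep.pt (rep_ix ρ)
    exact ⟨_, e ρ, .of_comp (X := (vR g (r + 1) d).X) (Y := X.vr.X) (f := fun ρ => mk (fl _ (ep_rz ρ))) (a1.hol.at _) (a2.hol.at ρ)
      ((sbm_pt ρ).cng (.of_forall fun ρ => (e ρ).symm))⟩
  · obtain ⟨ρ, rfl⟩ := Quot.exists_rep x
    have q := (hZ 0 0).oq.isQuotientMap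
    have c : Continuous fun a => (fG (a, ρ) : EV g d _) := cont_fG.comp (Continuous.prodMk_left ρ)
    have e : ∀ a, mk (fG (surjInv q.surjective (π a), ρ)) = mk (fG (a, ρ)) :=
      fun a => fG_eq.2 ((k3 _ _).1 (surjInv_eq _ _))
    let φ : C(Z, X.vr.X) := ⟨fun z => mk (fG (surjInv q.surjective z, ρ)),
      q.continuous_iff.2 ((mk_quo.continuous.comp c).congr fun a => (e a).symm)⟩
    have : CompactSpace Z := ⟨k2 ▸ k1.image q.continuous⟩
    refine ⟨TopCat.of Z, TopCat.ofHom φ, (φ.continuous.isClosedEmbedding fun z z' l =>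
      (surjInv_eq q.surjective z).symm.trans (((k3 _ _).2 (fG_eq.1 l)).trans
        (surjInv_eq _ _))).isInducing, Subset.antisymm (range_subset_iff.2 fun z => piX_fG _)
          fun y l => ?_, fun z hz => ?_⟩
    · obtain ⟨a, rfl⟩ := ex_fG l
      exact ⟨π a, e a⟩
    · obtain ⟨t, rfl⟩ := k4 z hz
      refine ⟨t, congrArg (fun u : th.E Z => t • u.1) (Eq.trans ?_ (map_prod (th.pe φ) _ _).symm)⟩
      refine Finset.prod_congr rfl fun p _ => (P275CC.Th.c_iso ((hL _ _).iso_pb (hZ _ _) c φ e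
        fun a b s ⟨h, l1, l2, l3⟩ => ⟨h, 1, ?_, l3⟩)).trans (P275CC.Th.c_pb φ _)
      have l4 := left_ne_zero_of_mul (det_mul h b.1 ▸ l2 ▸ a.det_ne_zero)
      exact ⟨l1, l4, one_ne_zero, by simp [fG, fl, vm_pt, mul_nonsing_inv _ l4.isUnit],
        by rw [fG, fG, fl, fl, pt_inr, pt_inr, ← cjx_mul, ← l2]⟩

end Vale.Agent.P275CH
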