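import Vale.Agent.P275RG.Prin
import Vale.Agent.P275RG.Aff
import Vale.Agent.P275BC.Basic

/-!
P275 (helper22): manifold structures from embeddings; algebraic maps to projective space.
-/

set_option linter.all false

open scoped Manifold ContDiff Topology
open Set Filter Topology Function
open Vale.Agent.P272.K (Cm Chart At)
open Vale.Agent.P277Z (Hol at_chart)
open Vale.Agent.P281Z Vale.Agent.P275RG
open P275BC (ZC)

noncomputable section

namespace Vale.Agent.P275GQ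

section cs

variable {N d : ℕ} {X Q : Type} [TopologicalSpace X] [ChartedSpace (Cm N) X]
  [IsManifold 𝓘(ℂ, Cm N) ω X] [TopologicalSpace Q] {τ : Q → X}

/-- local parametrisations give a submanifold -/
theorem subM_of_par (hτ : IsInducing τ) (h : ∀ q, ∃ (σ : Cm d → Q) (u : Cm d), σ u = q ∧
    HolA d N (fun u => τ (σ u)) u ∧ Imm d N (fun u => τ (σ u)) u ∧ 𝓝 q ≤ map σ (𝓝 u)) :
    SubM N d (range τ) := by
  rintro _ ⟨q, rfl⟩
  obtain ⟨σ, u, rfl, h1, h2, h3⟩ := h q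
  obtain ⟨c, g, a1, a2, a3, a4⟩ := h2.img h1
  have a5 : ∀ᶠ q in 𝓝 (σ u), ∀ a, g a (τ q) = 0 := h3 a3
  rw [hτ.nhds_eq_comap, eventually_comap] at a5
  refine ⟨c, g, a1, a2, ?_⟩
  filter_upwards [a5, a4 univ univ_mem] with z k1 k2
  exact ⟨fun ⟨x, e⟩ => e ▸ k1 x e, fun hz => let ⟨x, _, e⟩ := k2 hz; ⟨σ x, e⟩⟩

/-- the complex structure of an embedded space -/
theorem exists_cs (hτ : IsEmbedding τ) (h : SubM N d (range τ)) : ∃ (_ : ChartedSpace (Cm d) Q)
    (_ : IsManifold 𝓘(ℂ, Cm d) ω Q), Emb d N τ (range τ) := by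
  have h0 : ∀ q, ∃ c : Chart d Q, q ∈ c.source ∧ ImC N τ c := fun q => by
    obtain ⟨c, h1, h2⟩ := h.chart (hτ.toHomeomorph q)
    refine ⟨hτ.toHomeomorph.transOpenPartialHomeomorph c, h1, ?_⟩
    have e : ∀ z, τ ((hτ.toHomeomorph.transOpenPartialHomeomorph c).symm z) = (c.symm z).1 :=
      fun z => congrArg Subtype.val (hτ.toHomeomorph.apply_symm_apply _)
    simp only [ImC, e]
    exact h2
  choose e h1 h2 using h0
  let A : Atl d N τ := ⟨e, h1, h2, hτ.continuous⟩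
  let := A.cs
  have := A.isManifold
  exact ⟨A.cs, A.isManifold, fun z => HolA.of_an A.cont.continuousAt (at_chart z) (at_chart _)
    (h2 z _ ((e z).map_source (h1 z)) _ (((e z).left_inv (h1 z)).symm ▸ at_chart _)).1,
    hτ.injective, fun z e e' he he' =>
      ((he.1 : ImC N _ e) _ he.mem_target e' (he.left_inv.symm ▸ he')).2, rfl⟩

end cs

variable {N n : ℕ} (S : PS N) {U : Type} [TopologicalSpace U] [ChartedSpace (Cm n) U]
  [IsManifold 𝓘(ℂ, Cm n) ω U] {c : Cp n U}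

/-- projective space as its own compactification -/
def cP : Cp N S.P.X := .self S.P (S.pos.kah S.lb P277Z.Pos.kah)

/-- a coordinate hyperplane -/
def hyp (l : Fin (N + 1)) : Set S.P.X := {p | (S.surj p).choose l = 0}

/-- affine coordinates -/
def rat (l : Fin (N + 1)) (p : S.P.X) : Cm (N + 1) := fun k => (S.surj p).choose k / (S.surj p).choose l

variable {S} {l : Fin (N + 1)} {v : Cm (N + 1)} {p : S.P.X} {h : S.H.ι}

theorem rep_pt (hv : v ≠ 0) : ∃ a : ℂ, a ≠ 0 ∧ (S.surj (S.pt v)).choose = a • v :=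
  let ⟨h1, h2⟩ := (S.surj (S.pt v)).choose_spec
  let ⟨a, e⟩ := (S.pt_eq_iff h1 hv).1 h2
  ⟨a, fun h0 => h1 (by rw [e, h0, zero_smul]), e⟩

theorem hyp_pt (hv : v ≠ 0) : S.pt v ∈ hyp S l ↔ v l = 0 := by
  obtain ⟨a, h1, h2⟩ := rep_pt (S := S) hv
  rw [hyp, mem_setOf_eq, h2, Pi.smul_apply, smul_eq_mul, mul_eq_zero_iff_left h1]

theorem rat_pt (hv : v ≠ 0) (k : Fin (N + 1)) : rat S l (S.pt v) k = v k / v l := by
  obtain ⟨a, h1, h2⟩ := rep_pt (S := S) hv
  rw [rat, h2, smul_ratio h1]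

theorem hyp_x (hp : p ∈ S.H.U h) : p ∈ hyp S l ↔ S.x h p l = 0 := by
  rw [← hyp_pt (S := S) (S.xnz h p hp), S.pt_x' hp]

theorem rat_x (hp : p ∈ S.H.U h) (k : Fin (N + 1)) : rat S l p k = S.x h p k / S.x h p l := by
  rw [← rat_pt (S := S) (S.xnz h p hp), S.pt_x' hp]

theorem pt_rat (hp : p ∉ hyp S l) : rat S l p ≠ 0 ∧ S.pt (rat S l p) = p := by
  obtain ⟨v, hv, rfl⟩ := S.surj p
  rw [hyp_pt hv] at hp
  rw [show rat S l (S.pt v) = _ from (funext (rat_pt hv)).trans (ratio_eq v l)]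
  exact ⟨smul_ne_zero (inv_ne_zero hp) hv, S.pt_smul (inv_ne_zero hp) hv⟩

theorem an_hyp (l : Fin (N + 1)) : An N (hyp S l) := fun p =>
  let ⟨h, hp⟩ := S.lb.cover p
  ⟨1, fun _ q => S.x h q l, fun _ => S.xhol hp l, ((S.lb.isOpen h).eventually_mem hp).mono
    fun _ hq => (hyp_x hq).trans (forall_const _).symm⟩

theorem hol_rat (hp : p ∉ hyp S l) (k : Fin (N + 1)) : Hol N (fun p => rat S l p k) p :=
  let ⟨h, hh⟩ := S.lb.cover p
  ((S.xhol hh k).div (S.xhol hh l) (mt (hyp_x hh).2 hp)).congr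
    (((S.lb.isOpen h).eventually_mem hh).mono fun _ hq => (rat_x hq k).symm)

theorem reg_rat {t : U → S.P.X} (ht : Alg c (cP S) t) (h0 : ∀ u, t u ∉ hyp S l) (k : Fin (N + 1)) :
    Reg c fun u => rat S l (t u) k := by
  obtain ⟨c₁, p, F, h1, h2⟩ := ht.ext
  refine Reg.desc ⟨fun u => ht.hol.hol (hol_rat (h0 u) k), fun y => ?_⟩ h1
  obtain ⟨h, hh⟩ := S.lb.cover (F y)
  refine ⟨fun z => S.x h (F z) k, fun z => S.x h (F z) l, h2.hol.hol (S.xhol hh _),
    h2.hol.hol (S.xhol hh _), ?_⟩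
  filter_upwards [h2.hol.cont.continuousAt.eventually ((S.lb.isOpen h).eventually_mem hh)]
    with z hz u hu
  have e : F z = t u := hu ▸ h2.eq u
  rw [e] at hz ⊢
  exact ⟨mt (hyp_x hz).2 (h0 u), by rw [rat_x hz, div_mul_cancel₀ _ (mt (hyp_x hz).2 (h0 u))]⟩

theorem zc_of_ZC {σ : Type} [Finite σ] {t : U → σ → ℂ} (ht : ∀ i, Reg c fun x => t x i)
    {C : Set (σ → ℂ)} (hC : ZC C) : Zc c (t ⁻¹' C) :=
  let ⟨s, e⟩ := hC
  e ▸ zc_poly ht s

/-- the closure in projective space of an affine variety -/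
theorem an_chart {C : Set (Cm (N + 1))} (hC : ZC C) (l : Fin (N + 1)) :
    An N {p | p ∈ hyp S l ∨ rat S l p ∈ C} := by
  let O : TopologicalSpace.Opens S.P.X := ⟨(hyp S l)ᶜ, (an_hyp l).closed.isOpen_compl⟩
  obtain ⟨c, π, h1, -⟩ := ex_off S.P (cP S).kah (an_hyp l) (opens_emb O)
  have h2 := zc_of_ZC (reg_rat (S := S) h1.alg fun u => u.2) hC
  rw [show {p | p ∈ hyp S l ∨ rat S l p ∈ C} = hyp S l ∪ _ from ?_]
  · exact (an_hyp l).union (h2.clo h1.alg).an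
  ext p
  refine ⟨fun e => or_iff_not_imp_left.2 fun hp =>
    subset_closure ⟨⟨p, hp⟩, e.resolve_left hp, rfl⟩, fun e => or_iff_not_imp_left.2 fun hp => ?_⟩
  exact h2.closed.closure_subset ((IsInducing.subtypeVal.closure_eq_preimage_closure_image _).ge
    (show (⟨p, hp⟩ : O) ∈ _ from e.resolve_left hp))

/-- regular functions without common zero give an algebraic map to projective space -/
theorem alg_pt {v : U → Cm (N + 1)} (hv : ∀ k, Reg c fun x => v x k) (h0 : ∀ x, v x ≠ 0) :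
    Alg c (cP S) fun x => S.pt (v x) := by
  refine alg_of_an (A := {w | ∀ x, c.j x = c.Y.p1 _ w → c.Y.p2 (cP S).Y w = S.pt (v x)})
    (fun x => S.holA (fun k => (hv k).hol x) (h0 x)) (.of_fin fun w => ?_)
    fun x y => ⟨fun e => e x rfl, fun e x' e' => c.inj e' ▸ e⟩
  choose a b k1 k2 k3 using fun k => (hv k).mer (c.Y.p1 (cP S).Y w)
  obtain ⟨τ, k4, k5⟩ := c.eqn (c.Y.p1 (cP S).Y w)
  obtain ⟨g, hp⟩ := S.lb.cover (c.Y.p2 (cP S).Y w)
  refine ⟨Fin (N + 1) × Fin (N + 1), inferInstance, fun q w => τ (c.Y.p1 _ w) *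
    (S.x g (c.Y.p2 (cP S).Y w) q.1 * a q.2 (c.Y.p1 _ w) * b q.1 (c.Y.p1 _ w) -
      S.x g (c.Y.p2 (cP S).Y w) q.2 * a q.1 (c.Y.p1 _ w) * b q.2 (c.Y.p1 _ w)),
    fun q => (hol_p1.hol k4).mul ((((hol_p2.hol (S.xhol hp _)).mul (hol_p1.hol (k1 _))).mul
      (hol_p1.hol (k2 _))).sub (((hol_p2.hol (S.xhol hp _)).mul (hol_p1.hol (k1 _))).mul
      (hol_p1.hol (k2 _)))), ?_⟩
  filter_upwards [cont_p1.continuousAt.eventually ((eventually_all.2 k3).and k5),
    cont_p2.continuousAt.eventually ((S.lb.isOpen g).eventually_mem hp)] with z ⟨l1, l2⟩ l3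
  by_cases hz : c.Y.p1 _ z ∈ off c.G
  · obtain ⟨x, hx⟩ := c.ex hz
    simp only [mul_eq_zero, or_iff_right fun e => l2.1 e hz, ← (l1 _ x hx).2]
    have key := S.pt_eq_iff' (S.xnz g _ l3) (h0 x)
    rw [S.pt_x' l3] at key
    refine ⟨fun e q => ?_, fun e x' e' => ?_⟩
    · linear_combination b q.1 (c.Y.p1 _ z) * b q.2 (c.Y.p1 _ z) * key.1 (e x hx) q.1 q.2
    · obtain rfl := c.inj (e'.trans hx.symm)
      exact key.2 fun i j => mul_left_cancel₀ (mul_ne_zero (l1 i _ hx).1 (l1 j _ hx).1)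
        (by linear_combination e (i, j))
  · exact iff_of_true (fun x hx => absurd (hx ▸ c.mem x) hz) fun i => by rw [l2.2 hz, zero_mul]

end Vale.Agent.P275GQ
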